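import Vale.Agent.P141.H816.FDat
import Vale.Agent.P141.H677.FDb
import Vale.Agent.P141.H576.StatZ
import Vale.Agent.P141.H652.RedI
import Vale.Agent.P141.H401.CutV
import Vale.Agent.P141.H80.CutCol

/-!
# P141, line (A): the bundle `H677.Sk.FDs` for the definite cut families

* `row_tt`, `box_tt`, `own_tt` : bounds at times `k` and `k + 1` from those at time `k + 1`;
* `fds_ex` : over class data the families `cA`, `cb`, `mC` of `H401.CutData` have all properties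
  of `H677.Sk.FDs`, for every `v'` with `v' = v` or `v' = 0` at every point and with small fibres;
* `mk_fds` : the same with the quantifiers of `H401.PartQ`.
-/

namespace Vale.Agent.P141.H816

open Finset Matrix
open Vale.Agent.P075 (Ix val)
open Vale.Agent.P141.PL (Pt iv hs ix mem_iv ix_ix cx)
open Vale.Agent.P141.PL.H315 (Tri A2 avg)
open Vale.Agent.P141.H48 (US ES BSl sst)
open Vale.Agent.P141.H103 (un QW QK PA PA_eq tr_one QK_zero)
open Vale.Agent.P141.H205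
open Vale.Agent.P141.H305 (Cls ClsM kapM)
open Vale.Agent.P141.H401 (Bun MkSt PartQ PartY mA mb mC qA qB qC cA cb b1)
open Vale.Agent.P141.H576 (QD GapFam Dd_sst QD_pack agree_kD QK_quad mem_two)
open Vale.Agent.P141.H588G (S2)
open Vale.Agent.P141.H677 (fA fb fC kF KT)
open Vale.Agent.P141.H677.Sk (FamA FamV FDs lam1)
open Vale.Agent.P141.H769 (sst_congr sst_anti corner ix_of_le not_sst_le iv_pt iv_ix ix_two_pow_mul)

noncomputable section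

open scoped Classical

/-! ### Times `k` and `k + 1` -/

/-- rows at times `k` and `k + 1` -/
theorem row_tt {K : ℕ} {f g : ℕ → ℤ → ℝ} (f0 : ∀ y, f 0 y = 0) (g0 : ∀ y, 0 ≤ g 0 y)
    (h : ∀ k < K, ∀ m, ∑ y ∈ iv k m, f (k + 1) y ≤ ∑ y ∈ iv k m, g (k + 1) y) :
    ∀ k ≤ K, ∀ j, j = k ∨ (j = k + 1 ∧ k < K) → ∀ m,
      ∑ y ∈ iv k m, f j y ≤ ∑ y ∈ iv k m, g j y := by
  intro k hk j hj m
  rcases hj with rfl | ⟨rfl, hk1⟩
  · cases j with
    | zero =>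
      refine sum_le_sum fun y _ => ?_
      rw [f0]
      exact g0 y
    | succ k =>
      rw [sum_iv_two' k m fun y => f (k + 1) y, sum_iv_two' k m fun y => g (k + 1) y]
      exact add_le_add (h k (by omega) _) (h k (by omega) _)
  · exact h k hk1 m

/-- boxes at times `k` and `k + 1` -/
theorem box_tt {K : ℕ} {R S : ℤ} {f : ℤ → ℕ → ℤ → ℤ → ℝ} {B : ℝ} (hB : 0 ≤ B)
    (f0 : ∀ x0 z y, f x0 0 z y = 0)
    (h : ∀ k < K, ∀ i : ℤ, ∀ n' ∈ iv (K - k) R, ∀ m' ∈ iv (K - k) S,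
      ∑ x0 ∈ iv k i, ∑ z ∈ iv k n', ∑ y ∈ iv k m', f x0 (k + 1) z y ≤ B * 8 ^ k) :
    ∀ k ≤ K, ∀ j, j = k ∨ (j = k + 1 ∧ k < K) → ∀ i : ℤ, ∀ n' ∈ iv (K - k) R,
      ∀ m' ∈ iv (K - k) S,
      ∑ x0 ∈ iv k i, ∑ z ∈ iv k n', ∑ y ∈ iv k m', f x0 j z y ≤ B * 8 ^ k := by
  intro k hk j hj i n' hn m' hm
  rcases hj with rfl | ⟨rfl, hk1⟩
  · cases j with
    | zero =>
      simp only [f0, sum_const_zero]
      positivity
    | succ k =>
      obtain ⟨n1, n2⟩ := mem_two hk hn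
      obtain ⟨m1, m2⟩ := mem_two hk hm
      have hk' : k < K := by omega
      simp only [sum_iv_two' k, sum_add_distrib]
      have a1 := h k hk' (2 * i) _ n1 _ m1
      have a2 := h k hk' (2 * i) _ n1 _ m2
      have a3 := h k hk' (2 * i) _ n2 _ m1
      have a4 := h k hk' (2 * i) _ n2 _ m2
      have b1 := h k hk' (2 * i + 1) _ n1 _ m1
      have b2 := h k hk' (2 * i + 1) _ n1 _ m2
      have b3 := h k hk' (2 * i + 1) _ n2 _ m1
      have b4 := h k hk' (2 * i + 1) _ n2 _ m2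
      rw [pow_succ]
      linarith
  · exact h k hk1 i n' hn m' hm

/-- square traces at times `k` and `k + 1` -/
theorem own_tt {K : ℕ} {R S : ℤ} {s : ℤ → ℕ → ℕ → ℤ → ℤ → ℝ} {γ : ℝ} (hγ : 0 ≤ γ)
    (s0 : ∀ x0 n m, s x0 0 0 n m = 0)
    (step : ∀ x0 j k n m, s x0 j (k + 1) n m ≤ 1 / 4 *
      ((s x0 j k (2 * n) (2 * m) + s x0 j k (2 * n + 1) (2 * m)) +
        (s x0 j k (2 * n) (2 * m + 1) + s x0 j k (2 * n + 1) (2 * m + 1))))
    (h : ∀ k < K, ∀ i : ℤ, ∀ n ∈ iv (K - k) R, ∀ m ∈ iv (K - k) S,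
      ∑ x0 ∈ iv k i, s x0 (k + 1) k n m ≤ γ * 2 ^ k) :
    ∀ k ≤ K, ∀ j, j = k ∨ (j = k + 1 ∧ k < K) → ∀ i : ℤ, ∀ n ∈ iv (K - k) R,
      ∀ m ∈ iv (K - k) S, ∑ x0 ∈ iv k i, s x0 j k n m ≤ γ * 2 ^ k := by
  intro k hk j hj i n hn m hm
  rcases hj with rfl | ⟨rfl, hk1⟩
  · cases j with
    | zero =>
      simp only [s0, sum_const_zero]
      positivity
    | succ k =>
      obtain ⟨n1, n2⟩ := mem_two hk hn
      obtain ⟨m1, m2⟩ := mem_two hk hm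
      have hk' : k < K := by omega
      refine (sum_le_sum fun x0 _ => step x0 (k + 1) k n m).trans ?_
      rw [← mul_sum]
      simp only [sum_iv_two' k, sum_add_distrib]
      have a1 := h k hk' (2 * i) _ n1 _ m1
      have a2 := h k hk' (2 * i) _ n1 _ m2
      have a3 := h k hk' (2 * i) _ n2 _ m1
      have a4 := h k hk' (2 * i) _ n2 _ m2
      have b1 := h k hk' (2 * i + 1) _ n1 _ m1
      have b2 := h k hk' (2 * i + 1) _ n1 _ m2
      have b3 := h k hk' (2 * i + 1) _ n2 _ m1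
      have b4 := h k hk' (2 * i + 1) _ n2 _ m2
      rw [pow_succ]
      linarith
  · exact h k hk1 i n hn m hm

/-- the quarter step without weight -/
theorem S2_one_quad {κ : Type*} [Fintype κ] [DecidableEq κ] (b : ℤ → ℤ → κ → ℝ) (k : ℕ)
    (n m : ℤ) : S2 (QW (k + 1) (k + 1) b (fun _ => 1) n m) ≤ 1 / 4 *
      ((S2 (QW k k b (fun _ => 1) (2 * n) (2 * m)) +
        S2 (QW k k b (fun _ => 1) (2 * n + 1) (2 * m))) +
        (S2 (QW k k b (fun _ => 1) (2 * n) (2 * m + 1)) +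
        S2 (QW k k b (fun _ => 1) (2 * n + 1) (2 * m + 1)))) := by
  have tr : ∀ _ : ℤ, H420.Tr (1 : ℝ) (k + 1) (fun _ _ => (0 : Matrix κ κ ℝ)) (fun _ _ => 1) :=
    fun _ => ⟨one_pos, fun _ _ => PosSemidef.zero, fun _ _ => PosDef.one, fun _ _ => by simp,
      fun _ _ _ => by simp⟩
  have h := QK_quad tr (Nat.lt_succ_self k) b n m
  have e : ∀ j n m, QK b (fun _ _ _ => (1 : Matrix κ κ ℝ)) j j n m =
      QW j j b (fun _ => 1) n m := by
    intro j n m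
    unfold H103.QK
    simp only [inv_one]
  rw [e, e, e, e, e] at h
  exact h

/-! ### Rows of the definite families -/

section fam

variable {ι : Type} [Fintype ι] [DecidableEq ι] {n : ℕ} {e cP : ℝ} {F : ℕ → Pt → ℝ}
  {Q : ℕ → Pt → Prop}

theorem qB_zero (p : H401.Num) (U : Tri) (K : ℕ) (Q3 : ℕ → Pt → Prop) (i z y : ℤ) :
    qB p U K Q3 0 i z y := Or.inl rfl

theorem qA_zero (p : H401.Num) (U : Tri) (K : ℕ) (Q1 : ℕ → Pt → Prop) (i z y : ℤ) :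
    qA p U K Q1 0 i z y := Or.inl rfl

theorem mb_agree (p : H401.Num) (U : Tri) (K : ℕ) (u : ℤ → ℤ → ι → ℝ) (hB : BSl n e cP F Q)
    {x0 : ℤ} {k : ℕ} (hk : k < n) {n' m' : ℤ} (hq : ¬ qB p U K Q k (ix k x0) n' m') :
    ∀ z ∈ iv k n', ∀ y ∈ iv k m', mb p U K u F x0 (k + 1) z y = mb p U K u F x0 k z y := by
  intro z hz y hy
  have h := agree_kD (Dd_sst p.Lm U.1 K) hB hk hq hz hy
  show kF p.Lm U.1 K F (k + 1) (x0, z, y) • u z y = kF p.Lm U.1 K F k (x0, z, y) • u z y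
  have h' : kF p.Lm U.1 K F (k + 1) (x0, z, y) = kF p.Lm U.1 K F k (x0, z, y) := h
  rw [h']

theorem mA_agree (p : H401.Num) (U : Tri) (K : ℕ) (g : ℤ → ℤ → ℝ) (hB : BSl n e cP F Q)
    {x0 : ℤ} {k : ℕ} (hk : k < n) {n' m' : ℤ} (hq : ¬ qA p U K Q k (ix k x0) n' m') :
    ∀ z ∈ iv k n', ∀ y ∈ iv k m', mA p U K g F x0 (k + 1) z y = mA p U K g F x0 k z y := by
  intro z hz y hy
  have h := agree_kD (Dd_sst p.Lm U.2.2 K) hB hk hq hy hz
  have h' : kF p.Lm U.2.2 K F (k + 1) (x0, y, z) = kF p.Lm U.2.2 K F k (x0, y, z) := h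
  show g y z * kF p.Lm U.2.2 K F (k + 1) (x0, y, z) = g y z * kF p.Lm U.2.2 K F k (x0, y, z)
  rw [h']

/-- rows of the cut `b`, time `k + 1` -/
theorem rowb_one (p : H401.Num) (s r : ℝ) (U : Tri) {K : ℕ} (hK : K ≤ n) (u : ℤ → ℤ → ι → ℝ)
    (hB : BSl n e cP F Q) (x0 x' : ℤ) (w : ι → ℝ) :
    ∀ k < K, ∀ m', ∑ y ∈ iv k m', (cb p s r U K u F Q x0 (k + 1) x' y ⬝ᵥ w) ^ 2 ≤
      ∑ y ∈ iv k m', (mb p U K u F x0 (k + 1) x' y ⬝ᵥ w) ^ 2 := by
  intro k hk m'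
  have hx : x' ∈ iv k (ix k x') := mem_iv.2 rfl
  have h1 : ∑ y ∈ iv k m', (cb p s r U K u F Q x0 (k + 1) x' y ⬝ᵥ w) ^ 2 ≤
      ∑ y ∈ iv k m', (b1 p s r U K u F Q x0 (k + 1) x' y ⬝ᵥ w) ^ 2 := by
    unfold H401.cb
    rw [lowW_eq_cutG]
    exact rows_upto (isPrj_prW _ _ _) (fun n m => qB_zero p U K Q _ n m) (N := K)
      (fun k _ n m hq x hx y hy => lowF_off hq hx hy) w k hk _ m' x' hx
  refine h1.trans ?_
  unfold H401.b1
  rw [lowF_eq_cutG]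
  exact rows_upto (isPrj_prL _ _) (fun n m => qB_zero p U K Q _ n m) (N := K)
    (fun k hk n m hq => mb_agree p U K u hB (hk.trans_le hK) hq) w k hk _ m' x' hx

/-- rows of the cut `A`, time `k + 1` -/
theorem rowA_one (p : H401.Num) (s r : ℝ) (U : Tri) {K : ℕ} (hK : K ≤ n) (g : ℤ → ℤ → ℝ)
    (hB : BSl n e cP F Q) (x0 z : ℤ) :
    ∀ k < K, ∀ m', ∑ y ∈ iv k m', cA p s r U K g F Q x0 (k + 1) z y ^ 2 ≤
      ∑ y ∈ iv k m', mA p U K g F x0 (k + 1) z y ^ 2 := by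
  intro k hk m'
  have hz : z ∈ iv k (ix k z) := mem_iv.2 rfl
  have h := rows_upto (Q := fun k n m => qA p U K Q k (ix k x0) n m)
    (F := fun k => un (mA p U K g F x0 k))
    (isPrj_prL (p.th s r ^ 2) fun k => un (mA p U K g F x0 k))
    (fun n m => qA_zero p U K Q _ n m) (N := K)
    (fun k hk n m hq z hz y hy => by
      funext _
      exact mA_agree p U K g hB (hk.trans_le hK) hq z hz y hy) (fun _ => 1) k hk _ m' z hz
  have e1 : ∀ X : Unit → ℝ, X ⬝ᵥ (fun _ : Unit => (1 : ℝ)) = X () := by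
    intro X
    rw [dotProduct]
    simp
  simp only [e1] at h
  show ∑ y ∈ iv k m', H205.lowF (fun k n m => qA p U K Q k (ix k x0) n m) (p.th s r ^ 2)
    (fun k => un (mA p U K g F x0 k)) (k + 1) z y () ^ 2 ≤ _
  rw [lowF_eq_cutG]
  exact h

theorem cA_zero (p : H401.Num) (s r : ℝ) (U : Tri) (K : ℕ) (g : ℤ → ℤ → ℝ) (x0 z y : ℤ) :
    cA p s r U K g F Q x0 0 z y = 0 := rfl

theorem cb_zero (p : H401.Num) (s r : ℝ) (U : Tri) (K : ℕ) (u : ℤ → ℤ → ι → ℝ) (x0 z y : ℤ) :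
    cb p s r U K u F Q x0 0 z y = 0 := rfl

theorem cA_capS (p : H401.Num) (s r : ℝ) (U : Tri) (K : ℕ) (g : ℤ → ℤ → ℝ) (x0 : ℤ) (k : ℕ)
    (n' m' : ℤ) : CapS (p.th s r ^ 2) k k (un (cA p s r U K g F Q x0 (k + 1))) n' m' :=
  capS_path (Q := fun k n m => qA p U K Q k (ix k x0) n m) (F := fun k => un (mA p U K g F x0 k))
    (sq_nonneg _) (fun n m => qA_zero p U K Q _ n m) k n' m'

theorem cb_capS (p : H401.Num) (s r : ℝ) (U : Tri) (K : ℕ) (u : ℤ → ℤ → ι → ℝ) (x0 : ℤ) (k : ℕ)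
    (n' m' : ℤ) : CapS (p.th s r ^ 2) k k (cb p s r U K u F Q x0 (k + 1)) n' m' :=
  H80.lowW_capS (Q := fun k n m => qB p U K Q k (ix k x0) n m) (F := b1 p s r U K u F Q x0)
    (sq_nonneg _) (fun n m => qB_zero p U K Q _ n m)
    (fun k n m _ => capS_path (Q := fun k n m => qB p U K Q k (ix k x0) n m) (sq_nonneg _)
      (fun n m => qB_zero p U K Q _ n m) k n m) k n' m'

/-! ### Masses -/

section mass

variable {p : H401.Num} {K : ℕ} {x : Pt} {s r P : ℝ} {U : Tri} {g : ℤ → ℤ → ℝ}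
  {u v : ℤ → ℤ → ι → ℝ}

/-- mass of the cut `A`, time `k + 1` -/
theorem massA_one (hB : BSl n e cP F Q) (he : 0 ≤ e) (hΛ : 0 ≤ p.Lm) (hs : 0 ≤ s) (hK : K ≤ n)
    (hc : Cls K x s r P U g u v) : ∀ k < K, ∀ i : ℤ, ∀ n' ∈ iv (K - k) (ix K x.2.2),
    ∀ m' ∈ iv (K - k) (ix K x.2.1), ∑ x0 ∈ iv k i, ∑ z ∈ iv k n', ∑ y ∈ iv k m',
      cA p s r U K g F Q x0 (k + 1) z y ^ 2 ≤ 4 * e * p.Lm * s * 8 ^ k := by
  intro k hk i n' hn m' hm
  have h := mass_kF (X := x.2.1) (Y := x.2.2) hB he hΛ hs hK U.2.2 hc.U_g2 hk i hm hn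
  refine le_trans (sum_le_sum fun x0 _ => ?_) h
  rw [sum_comm (s := iv k m')]
  refine sum_le_sum fun z _ => (rowA_one p s r U hK g hB x0 z k hk m').trans (le_of_eq ?_)
  refine sum_congr rfl fun y _ => ?_
  show (g y z * kF p.Lm U.2.2 K F (k + 1) (x0, y, z)) ^ 2 =
    kF p.Lm U.2.2 K F (k + 1) (x0, y, z) ^ 2 * U.2.2 (y, z) ^ 2
  rw [hc.U_g]
  ring

/-- mass of the cut `b`, time `k + 1` -/
theorem massb_one (hB : BSl n e cP F Q) (he : 0 ≤ e) (hΛ : 0 ≤ p.Lm) (hs : 0 ≤ s) (hK : K ≤ n)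
    (hc : Cls K x s r P U g u v) : ∀ k < K, ∀ i : ℤ, ∀ n' ∈ iv (K - k) (ix K x.1),
    ∀ m' ∈ iv (K - k) (ix K x.2.1), ∑ x0 ∈ iv k i, ∑ z ∈ iv k n', ∑ y ∈ iv k m',
      cb p s r U K u F Q x0 (k + 1) z y ⬝ᵥ cb p s r U K u F Q x0 (k + 1) z y ≤
        4 * e * p.Lm * s * 8 ^ k := by
  intro k hk i n' hn m' hm
  have h := mass_kF (X := x.1) (Y := x.2.1) hB he hΛ hs hK U.1 hc.U_u2 hk i hn hm
  refine le_trans (sum_le_sum fun x0 _ => sum_le_sum fun z hz => ?_) h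
  have h1 : ∑ y ∈ iv k m', cb p s r U K u F Q x0 (k + 1) z y ⬝ᵥ
      cb p s r U K u F Q x0 (k + 1) z y ≤ ∑ y ∈ iv k m', mb p U K u F x0 (k + 1) z y ⬝ᵥ
      mb p U K u F x0 (k + 1) z y := by
    rw [sum_dot_single, sum_dot_single]
    exact sum_le_sum fun l _ => rowb_one p s r U hK u hB x0 z _ k hk m'
  refine h1.trans (sum_le_sum fun y hy => ?_)
  show (kF p.Lm U.1 K F (k + 1) (x0, z, y) • u z y) ⬝ᵥ
    (kF p.Lm U.1 K F (k + 1) (x0, z, y) • u z y) ≤ _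
  rw [smul_dotProduct, dotProduct_smul, smul_eq_mul, smul_eq_mul, ← mul_assoc, ← sq]
  refine mul_le_mul_of_nonneg_left (hc.u_le z ?_ y ?_) (sq_nonneg _)
  · rw [iv_pt]
    exact H576.root_mem hk.le hn hz
  · rw [iv_pt]
    exact H576.root_mem hk.le hm hy

end mass

theorem PA_one (A : ℤ → ℤ → ℝ) (k : ℕ) (n m : ℤ) :
    PA A k k n m = QW k k (un A) (fun _ => 1) n m := by
  rw [PA_eq]
  unfold H103.QK
  simp only [inv_one]

theorem QK_one {κ : Type*} [Fintype κ] [DecidableEq κ] (b : ℤ → ℤ → κ → ℝ) (k : ℕ) (n m : ℤ) :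
    QK b (fun _ _ _ => (1 : Matrix κ κ ℝ)) k k n m = QW k k b (fun _ => 1) n m := by
  unfold H103.QK
  simp only [inv_one]

theorem S2_zero_fun {κ : Type*} [Fintype κ] [DecidableEq κ] (n m : ℤ) :
    S2 (QW 0 0 (0 : ℤ → ℤ → κ → ℝ) (fun _ => 1) n m) = 0 := by
  rw [← QK_one, QK_zero]
  unfold H588G.S2
  simp

/-- **The bundle of the flow part over class data.** -/
theorem fds_ex {c d Kt e cP : ℝ} (hd : 0 < d) (hKt : 0 < Kt) (he : 1 ≤ e) (hcP : 0 ≤ cP) :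
    ∃ CD0 : ℝ, 1 ≤ CD0 ∧ ∀ q : H401.Num, q.c = c → q.d = d → q.e = e → q.cP = cP → CD0 ≤ q.CD →
      0 < q.t → q.t ≤ 1 → ∀ (n : ℕ) (ez : ℝ) (F1 F2 F3 : ℕ → Pt → ℝ) (Q1 Q2 Q3 : ℕ → Pt → Prop),
      US n (Kt * q.t ^ (1 - c)) e cP F1 → BSl n e cP F1 Q1 →
      US n (Kt * q.t ^ (1 - c)) e cP F3 → BSl n e cP F3 Q3 → BSl n ez cP F2 Q2 →
      ∀ K ≤ n, ∀ (x : Pt) (ι : Type) [Fintype ι] [DecidableEq ι] (s r P : ℝ) (U : Tri)
      (g : ℤ → ℤ → ℝ) (u v v' : ℤ → ℤ → ι → ℝ), 0 < s → Cls K x s r P U g u v →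
      (∀ x' z, v' x' z = v x' z ∨ v' x' z = 0) →
      (∀ k ≤ K, ∀ x1 ∈ iv K (ix K x.1), ∀ x3 ∈ iv K (ix K x.2.2), ¬ sst q.Lm U.2.1 K k x1 x3 →
        ∑ y ∈ iv k (ix k x3), v' x1 y ⬝ᵥ v' x1 y ≤ lam1 q s r * 2 ^ k) →
      FDs q n ez F1 F2 F3 K x s r U g u v (cA q s r U K g F1 Q1) (cb q s r U K u F3 Q3)
        (mC q U K v' F2) Q1 Q2 Q3 v' := by
  obtain ⟨CA, hCA, H⟩ := H652.gapUN (c := c) hd hKt he hcP
  refine ⟨CA + 4 * e + 1, by linarith, ?_⟩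
  intro q hqc hqd hqe hqP hCD ht ht1 n ez F1 F2 F3 Q1 Q2 Q3 hF1 hB1 hF3 hB3 hB2 K hK x ι _ _ s r P
    U g u v v' hs hc hv' hfib
  have hpos : 0 < q.t ^ (2 - 2 * c - 2 * d) * s ^ (3 / 2 : ℝ) :=
    mul_pos (Real.rpow_pos_of_pos ht _) (Real.rpow_pos_of_pos hs _)
  have hΛ : 0 < q.Lm := Real.rpow_pos_of_pos ht _
  have e0 : q.t ^ (2 - 2 * q.c - 2 * q.d) * s ^ (3 / 2 : ℝ) =
      q.t ^ (2 - 2 * c - 2 * d) * s ^ (3 / 2 : ℝ) := by rw [hqc, hqd]
  have hLm : q.t ^ (-d) = q.Lm := by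
    rw [← hqd]
    rfl
  have gf : ∀ t₀ : ℤ, GapFam 1 K (fun _ _ _ => (0 : Matrix ι ι ℝ)) (fun _ _ _ => 1)
      (ix K x.2.2) (ix K x.2.1) (ix K x.1) t₀ (cA q s r U K g F1 Q1) (cb q s r U K u F3 Q3)
      (qA q U K Q1) (qB q U K Q3)
      (CA * (q.t ^ (2 - 2 * c - 2 * d) * s ^ (3 / 2 : ℝ)))
      (CA * (q.t ^ (2 - 2 * c - 2 * d) * s ^ (3 / 2 : ℝ))) (cP + 2) := by
    intro t₀
    have h := H q.t ht ht1 n F1 F3 Q1 Q3 hF1 hB1 hF3 hB3 K hK x ι s r P U g u v hs hc t₀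
    rw [hLm] at h
    exact H576.GapFam.cuts h (fun _ _ _ => Or.inl rfl) (fun _ _ _ => Or.inl rfl)
      (q.th s r ^ 2) (q.th s r ^ 2) (q.be s r ^ 2 / √(q.lam s r)) (KT (q.lam s r) u)
  have hle : CA * (q.t ^ (2 - 2 * c - 2 * d) * s ^ (3 / 2 : ℝ)) ≤
      q.CD * (q.t ^ (2 - 2 * q.c - 2 * q.d) * s ^ (3 / 2 : ℝ)) := by
    rw [e0]
    exact mul_le_mul_of_nonneg_right (by linarith) hpos.le
  have hγ : 0 ≤ q.CD * (q.t ^ (2 - 2 * q.c - 2 * q.d) * s ^ (3 / 2 : ℝ)) := by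
    refine le_trans ?_ hle
    positivity
  have hm1 : 4 * e * q.Lm * s ≤ q.CD * (q.Lm * s) := by
    have h1 : 0 ≤ q.Lm * s := by positivity
    nlinarith
  have hm0 : 0 ≤ q.CD * (q.Lm * s) := le_trans (by positivity) hm1
  have hB1' : BSl n q.e q.cP F1 Q1 := by rw [hqe, hqP]; exact hB1
  have hB2' : BSl n ez q.cP F2 Q2 := by rw [hqP]; exact hB2
  have hB3' : BSl n q.e q.cP F3 Q3 := by rw [hqe, hqP]; exact hB3
  constructor
  · exact hB1'
  · exact hB2'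
  · exact hB3'
  · exact fun x0 z y => rfl
  · exact fun x0 z y => rfl
  · intro x0 k _ n' m' hq z hz y hy
    have h := lowF_off (c := q.th s r ^ 2) (F := fun k => un (mA q U K g F1 x0 k))
      (Q := fun k n m => qA q U K Q1 k (ix k x0) n m) hq hz hy
    exact congrFun h ()
  · intro x0 k _ n' m' hq z hz y hy
    exact H80.lowG_off (Q := fun k n m => qB q U K Q3 k (ix k x0) n m) hq hz hy
  · exact fun x0 k _ n' m' => capS_time (F := fun k => un (cA q s r U K g F1 Q1 x0 k))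
      (sq_nonneg _) rfl (fun k n m => cA_capS q s r U K g x0 k n m) k n' m'
  · exact fun x0 k _ n' m' => cA_capS q s r U K g x0 k n' m'
  · exact fun x0 k _ n' m' => capS_time (F := cb q s r U K u F3 Q3 x0)
      (sq_nonneg _) rfl (fun k n m => cb_capS q s r U K u x0 k n m) k n' m'
  · exact fun x0 k _ n' m' => cb_capS q s r U K u x0 k n' m'
  · refine own_tt (s := fun x0 j k n m => S2 (PA (cA q s r U K g F1 Q1 x0 j) k k n m)) hγ ?_ ?_ ?_
    · intro x0 n m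
      show S2 (PA (cA q s r U K g F1 Q1 x0 0) 0 0 n m) = 0
      rw [PA_one]
      exact S2_zero_fun n m
    · intro x0 j k n m
      show S2 (PA (cA q s r U K g F1 Q1 x0 j) (k + 1) (k + 1) n m) ≤ _
      simp only [PA_one]
      exact S2_one_quad _ k n m
    · intro k hk i n' hn m' hm
      refine ((gf (ix (K - k) i)).capA k hk i (mem_iv.2 rfl) n' hn m' hm).trans ?_
      exact mul_le_mul_of_nonneg_right hle (by positivity)
  · refine own_tt (s := fun x0 j k n m => S2 (QW k k (cb q s r U K u F3 Q3 x0 j)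
      (fun _ => 1) n m)) hγ ?_ ?_ ?_
    · intro x0 n m
      exact S2_zero_fun n m
    · intro x0 j k n m
      exact S2_one_quad _ k n m
    · intro k hk i n' hn m' hm
      have h := (gf (ix (K - k) i)).capB k hk i (mem_iv.2 rfl) n' hn m' hm
      simp only [QK_one] at h
      exact h.trans (mul_le_mul_of_nonneg_right hle (by positivity))
  · refine box_tt (f := fun x0 j z y => cA q s r U K g F1 Q1 x0 j z y ^ 2) hm0 ?_ ?_
    · intro x0 z y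
      show cA q s r U K g F1 Q1 x0 0 z y ^ 2 = 0
      rw [cA_zero, zero_pow two_ne_zero]
    · intro k hk i n' hn m' hm
      exact (massA_one hB1 (by linarith) hΛ.le hs.le hK hc k hk i n' hn m' hm).trans
        (mul_le_mul_of_nonneg_right hm1 (by positivity))
  · refine box_tt (f := fun x0 j z y => cb q s r U K u F3 Q3 x0 j z y ⬝ᵥ
      cb q s r U K u F3 Q3 x0 j z y) hm0 ?_ ?_
    · intro x0 z y
      show cb q s r U K u F3 Q3 x0 0 z y ⬝ᵥ cb q s r U K u F3 Q3 x0 0 z y = 0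
      rw [cb_zero, zero_dotProduct]
    · intro k hk i n' hn m' hm
      exact (massb_one hB3 (by linarith) hΛ.le hs.le hK hc k hk i n' hn m' hm).trans
        (mul_le_mul_of_nonneg_right hm1 (by positivity))
  · intro k hk j hj x0 x' m' w
    refine row_tt (K := K) (f := fun j y => (cb q s r U K u F3 Q3 x0 j x' y ⬝ᵥ w) ^ 2)
      (g := fun j y => (mb q U K u F3 x0 j x' y ⬝ᵥ w) ^ 2) ?_ (fun _ => sq_nonneg _)
      (fun k hk m => rowb_one q s r U hK u hB3 x0 x' w k hk m) k hk j hj m'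
    intro y
    show (cb q s r U K u F3 Q3 x0 0 x' y ⬝ᵥ w) ^ 2 = 0
    rw [cb_zero, zero_dotProduct, zero_pow two_ne_zero]
  · intro k hk j hj x0 z m'
    refine row_tt (K := K) (f := fun j y => cA q s r U K g F1 Q1 x0 j z y ^ 2)
      (g := fun j y => mA q U K g F1 x0 j z y ^ 2) ?_ (fun _ => sq_nonneg _)
      (fun k hk m => rowA_one q s r U hK g hB1 x0 z k hk m) k hk j hj m'
    intro y
    show cA q s r U K g F1 Q1 x0 0 z y ^ 2 = 0
    rw [cA_zero, zero_pow two_ne_zero]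
  · exact fun x0 k z x' => rfl
  · exact hv'
  · exact hfib

end fam

end

end Vale.Agent.P141.H816
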