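import Vale.Agent.P141.H816.MkFDs
import Vale.Agent.P141.H401.DvS

/-!
# P141, line (A): the maker of the bundle `H677.Sk.FD`

`mk_FD : H401.MkF H677.Sk.FD` : class data with small fibres of `v` make the bundle of the flow
part; `mk_FDV` : the data with the dense fibres cut off.
-/

namespace Vale.Agent.P141.H816

open Finset Matrix
open Vale.Agent.P141.PL (Pt iv hs ix mem_iv cx)
open Vale.Agent.P141.PL.H315 (Tri)
open Vale.Agent.P141.H48 (US ES BSl sst)
open Vale.Agent.P141.H305 (Cls ClsM kapM)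
open Vale.Agent.P141.H401 (Bun MkSt PartQ PartY FibP MkStV DvS)
open Vale.Agent.P141.H677.Sk (FDs)

noncomputable section

open scoped Classical

/-- **The maker of the bundle of the flow part.** -/
theorem mk_FD : H401.MkF H677.Sk.FD := by
  unfold H401.MkF H401.PartQ H401.PartY
  intro a _ _
  refine ⟨1, one_pos, fun e0 _ _ => ⟨1, one_pos, fun k8 _ _ => ⟨1, one_pos, fun k3 _ _ => ?_⟩⟩⟩
  refine ⟨1, 1, 1, 1, one_pos, one_pos, one_pos, one_pos,
    fun c _ _ d hd _ Kt e cP L hKt he hcP _ => ?_⟩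
  obtain ⟨CD, hCD, H⟩ := fds_ex (c := c) hd hKt he hcP
  refine ⟨CD, hCD, 0, le_rfl, ?_⟩
  intro t ht ht1 n ez F1 F2 F3 h1 h3 _ o _ K hK x ι _ _ s r U g u v hs _ hcls Q1 Q2 Q3 q1 q2 q3 hf
  exact ⟨Q1, Q2, Q3, v, H ⟨a, e0, k8, k3, c, d, Kt, e, cP, L, CD, t⟩ rfl rfl rfl rfl le_rfl ht ht1
    n ez F1 F2 F3 Q1 Q2 Q3 h1 q1 h3 q3 q2 K hK x ι s r _ U g u v v hs hcls.toCls
    (fun _ _ => Or.inl rfl) hf⟩

/-- **The maker for the data with the dense fibres cut off.** -/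
theorem mk_FDV : MkStV DvS H677.Sk.FD := mk_FD.toV

end

end Vale.Agent.P141.H816
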