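import Vale.Agent.P141.H816.FD

/-!
# P141, line (A): the data of the flow part for the definite cut families

`capS_time`, `rows_upto`, `mass_kF` : times, row energies below a scale, masses of killed inputs.
`fdat` : `FDat` for the families of `H401.CutData` over class data.
-/

namespace Vale.Agent.P141.H816

open Finset Matrix
open Vale.Agent.P075 (Ix val)
open Vale.Agent.P141.PL (Pt iv hs ix mem_iv ix_ix cx)
open Vale.Agent.P141.PL.H315 (Tri A2 avg)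
open Vale.Agent.P141.H48 (US ES BSl sst)
open Vale.Agent.P141.H103 (un QW)
open Vale.Agent.P141.H205
open Vale.Agent.P141.H305 (Cls ClsM kapM)
open Vale.Agent.P141.H401 (Bun MkSt mA mb mC qA qB qC cA cb b1)
open Vale.Agent.P141.H576 (QD GapFam Dd_sst QD_pack agree_kD)
open Vale.Agent.P141.H677 (fA fb fC kF KT)
open Vale.Agent.P141.H677.Sk (FamA FamV)
open Vale.Agent.P141.H769 (sst_congr sst_anti corner ix_of_le not_sst_le iv_pt iv_ix ix_two_pow_mul)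

noncomputable section

open scoped Classical

section gen

variable {κ : Type*} [Fintype κ] {Q : ℕ → ℤ → ℤ → Prop} {P : Prj} {c : ℝ}
  {F : ℕ → ℤ → ℤ → κ → ℝ}

/-- time `k` from time `k + 1` -/
theorem capS_time (hc : 0 ≤ c) (h0 : F 0 = 0) (h : ∀ k n m, CapS c k k (F (k + 1)) n m)
    (k : ℕ) (n m : ℤ) : CapS c k k (F k) n m := by
  cases k with
  | zero =>
    intro w
    have e : ∑ x ∈ iv 0 n, ∑ l : κ, (∑ y ∈ iv 0 m, w y * F 0 x y l) ^ 2 = 0 := by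
      rw [h0]
      simp
    rw [e]
    exact mul_nonneg (by positivity) (sum_nonneg fun _ _ => sq_nonneg _)
  | succ j => exact capS_four fun n' _ m' _ => h j n' m'

/-- rows of the cut, scales below `N` -/
theorem rows_upto (hP : IsPrj P) (hQ0 : ∀ n m, Q 0 n m) {N : ℕ}
    (hF : ∀ k < N, ∀ n m, ¬ Q k n m → ∀ x ∈ iv k n, ∀ y ∈ iv k m, F (k + 1) x y = F k x y)
    (w : κ → ℝ) : ∀ k < N, ∀ (n m : ℤ), ∀ x ∈ iv k n,
    ∑ y ∈ iv k m, (cutG Q P F (k + 1) x y ⬝ᵥ w) ^ 2 ≤ ∑ y ∈ iv k m, (F (k + 1) x y ⬝ᵥ w) ^ 2 := by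
  intro k
  induction k with
  | zero => exact fun _ n m x hx => cutG_rows_on hP (hQ0 n m) w hx
  | succ k ih =>
    intro hk n m x hx
    by_cases hQ : Q (k + 1) n m
    · exact cutG_rows_on hP hQ w hx
    · have e1 : ∀ y ∈ iv (k + 1) m, (cutG Q P F (k + 1 + 1) x y ⬝ᵥ w) ^ 2 =
          (cutG Q P F (k + 1) x y ⬝ᵥ w) ^ 2 := fun y hy => by
        rw [cutG_off hQ hx hy]
      have e2 : ∀ y ∈ iv (k + 1) m, (F (k + 1 + 1) x y ⬝ᵥ w) ^ 2 = (F (k + 1) x y ⬝ᵥ w) ^ 2 :=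
        fun y hy => by rw [hF (k + 1) hk n m hQ x hx y hy]
      rw [sum_congr rfl e1, sum_congr rfl e2,
        sum_iv_two' k m fun y => (cutG Q P F (k + 1) x y ⬝ᵥ w) ^ 2,
        sum_iv_two' k m fun y => (F (k + 1) x y ⬝ᵥ w) ^ 2]
      have hx1 : x ∈ iv k (ix k x) := mem_iv.2 rfl
      exact add_le_add (ih (by omega) _ _ x hx1) (ih (by omega) _ _ x hx1)

/-- row energies of the cut, scales below `N` -/
theorem row_upto (hP : IsPrj P) (hQ0 : ∀ n m, Q 0 n m) {N : ℕ}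
    (hF : ∀ k < N, ∀ n m, ¬ Q k n m → ∀ x ∈ iv k n, ∀ y ∈ iv k m, F (k + 1) x y = F k x y)
    (k : ℕ) (hk : k < N) (m x : ℤ) :
    ∑ y ∈ iv k m, cutG Q P F (k + 1) x y ⬝ᵥ cutG Q P F (k + 1) x y ≤
      ∑ y ∈ iv k m, F (k + 1) x y ⬝ᵥ F (k + 1) x y := by
  have hx1 : x ∈ iv k (ix k x) := mem_iv.2 rfl
  rw [sum_dot_single, sum_dot_single]
  exact sum_le_sum fun l _ => rows_upto hP hQ0 hF (Pi.single l 1) k hk _ m x hx1

end gen

/-! ### Masses of killed inputs -/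

theorem kF_sq_le (Λ : ℝ) (a : ℤ × ℤ → ℝ) (K : ℕ) (F : ℕ → Pt → ℝ) (k : ℕ) (q : Pt) :
    kF Λ a K F k q ^ 2 ≤ F k q ^ 2 := by
  unfold H677.kF
  split_ifs
  · rw [zero_pow two_ne_zero]
    exact sq_nonneg _
  · exact le_rfl

/-- the mass of a function on a square with alive parent -/
theorem sq_alive {Λ s : ℝ} {a : ℤ × ℤ → ℝ} {K k : ℕ} (hΛ : 0 ≤ Λ) (hk : k < K) {X Y r m : ℤ}
    (hX : ix (K - k) r = ix K X) (hY : ix (K - k) m = ix K Y) (ha : A2 K a X Y ≤ s)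
    (h : ¬ sst Λ a K (k + 1) (2 ^ k * r) (2 ^ k * m)) :
    ∑ z ∈ iv k r, ∑ y ∈ iv k m, a (z, y) ^ 2 ≤ 4 * Λ * s * 4 ^ k := by
  have h1 := (not_sst_le hk h).1
  have hcx : ix K (2 ^ k * r) = ix K X := by
    rw [← hX, ← Nat.add_sub_cancel' hk.le, ← ix_ix, ix_two_pow_mul, Nat.add_sub_cancel_left]
  have hcy : ix K (2 ^ k * m) = ix K Y := by
    rw [← hY, ← Nat.add_sub_cancel' hk.le, ← ix_ix, ix_two_pow_mul, Nat.add_sub_cancel_left]
  have e : A2 K a (2 ^ k * r) (2 ^ k * m) = A2 K a X Y := H48.A2_congr' a hcx hcy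
  rw [e] at h1
  have h2 : A2 k a (2 ^ k * r) (2 ^ k * m) =
      ((4 : ℝ) ^ k)⁻¹ * ∑ z ∈ iv k r, ∑ y ∈ iv k m, a (z, y) ^ 2 := by
    unfold PL.H315.A2 PL.H315.avg
    rw [← iv_ix, ← iv_ix, card_product, PL.card_iv, PL.card_iv, sum_product]
    congr 2
    push_cast
    rw [← mul_pow]
    norm_num
  rw [h2, inv_mul_le_iff₀ (by positivity)] at h1
  have h3 : Λ * A2 K a X Y ≤ Λ * s := mul_le_mul_of_nonneg_left ha hΛ
  have h4 : (0 : ℝ) < 4 ^ k := by positivity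
  calc _ ≤ _ := h1
    _ ≤ 4 ^ k * (4 * (Λ * s)) := by
        refine mul_le_mul_of_nonneg_left ?_ h4.le
        linarith
    _ = _ := by ring

/-- **The mass of a killed input.** -/
theorem mass_kF {n : ℕ} {e cP Λ s : ℝ} {F : ℕ → Pt → ℝ} {Q : ℕ → Pt → Prop}
    (hB : BSl n e cP F Q) (he : 0 ≤ e) (hΛ : 0 ≤ Λ) (hs : 0 ≤ s) {K : ℕ} (hK : K ≤ n)
    (a : ℤ × ℤ → ℝ) {X Y : ℤ} (ha : A2 K a X Y ≤ s) {k : ℕ} (hk : k < K) (i : ℤ) {r m : ℤ}
    (hr : r ∈ iv (K - k) (ix K X)) (hm : m ∈ iv (K - k) (ix K Y)) :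
    ∑ x0 ∈ iv k i, ∑ z ∈ iv k r, ∑ y ∈ iv k m,
      kF Λ a K F (k + 1) (x0, z, y) ^ 2 * a (z, y) ^ 2 ≤ 4 * e * Λ * s * 8 ^ k := by
  have h1 : ∑ x0 ∈ iv k i, ∑ z ∈ iv k r, ∑ y ∈ iv k m,
      kF Λ a K F (k + 1) (x0, z, y) ^ 2 * a (z, y) ^ 2 =
      ∑ z ∈ iv k r, ∑ y ∈ iv k m, (∑ x0 ∈ iv k i, kF Λ a K F (k + 1) (x0, z, y) ^ 2) *
        a (z, y) ^ 2 := by
    rw [sum_comm]
    refine sum_congr rfl fun z _ => ?_
    rw [sum_comm]
    exact sum_congr rfl fun y _ => (sum_mul ..).symm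
  rw [h1]
  have h8 : (8 : ℝ) ^ k = 2 ^ k * 4 ^ k := by rw [← mul_pow]; norm_num
  have hpos : 0 ≤ 4 * e * Λ * s * 8 ^ k := by positivity
  by_cases hst : sst Λ a K (k + 1) (2 ^ k * r) (2 ^ k * m)
  · refine le_trans (le_of_eq ?_) hpos
    refine sum_eq_zero fun z hz => sum_eq_zero fun y hy => ?_
    rw [sum_eq_zero, zero_mul]
    intro x0 _
    unfold H677.kF
    rw [if_pos, zero_pow two_ne_zero]
    right
    exact (sst_congr (ix_of_le (Nat.le_succ k) (corner k hz))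
      (ix_of_le (Nat.le_succ k) (corner k hy))).2 hst
  · have h2 := sq_alive hΛ hk (mem_iv.1 hr) (mem_iv.1 hm) ha hst
    have h3 : ∀ z y, ∑ x0 ∈ iv k i, kF Λ a K F (k + 1) (x0, z, y) ^ 2 ≤ e * 2 ^ k := by
      intro z y
      exact le_trans (sum_le_sum fun x0 _ => kF_sq_le ..) (hB.l0 k (by omega) i z y)
    calc _ ≤ ∑ z ∈ iv k r, ∑ y ∈ iv k m, e * 2 ^ k * a (z, y) ^ 2 :=
          sum_le_sum fun z _ => sum_le_sum fun y _ =>
            mul_le_mul_of_nonneg_right (h3 z y) (sq_nonneg _)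
      _ = e * 2 ^ k * ∑ z ∈ iv k r, ∑ y ∈ iv k m, a (z, y) ^ 2 := by
          simp only [mul_sum]
      _ ≤ e * 2 ^ k * (4 * Λ * s * 4 ^ k) := mul_le_mul_of_nonneg_left h2 (by positivity)
      _ = _ := by rw [h8]; ring

/-- lines of a killed input, time `k + 1` -/
theorem line_kF1 {n : ℕ} {e cP Λ : ℝ} {F : ℕ → Pt → ℝ} {Q : ℕ → Pt → Prop}
    (hB : BSl n e cP F Q) (a : ℤ × ℤ → ℝ) (K : ℕ) {k : ℕ} (hk : k < n) (j x1 x3 : ℤ) :
    ∑ x0 ∈ iv k j, kF Λ a K F (k + 1) (x0, x1, x3) ^ 2 ≤ e * 2 ^ k :=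
  le_trans (sum_le_sum fun x0 _ => kF_sq_le ..) (hB.l0 k hk j x1 x3)

/-- lines of a killed input, time `k` -/
theorem line_kF0 {n : ℕ} {e cP Λ : ℝ} {F : ℕ → Pt → ℝ} {Q : ℕ → Pt → Prop}
    (hB : BSl n e cP F Q) (he : 0 ≤ e) (a : ℤ × ℤ → ℝ) (K : ℕ) {k : ℕ} (hk : k ≤ n)
    (j x1 x3 : ℤ) : ∑ x0 ∈ iv k j, kF Λ a K F k (x0, x1, x3) ^ 2 ≤ e * 2 ^ k := by
  cases k with
  | zero =>
    have e1 : ∑ x0 ∈ iv 0 j, kF Λ a K F 0 (x0, x1, x3) ^ 2 = 0 := by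
      refine sum_eq_zero fun x0 _ => ?_
      unfold H677.kF
      rw [if_pos (Or.inl rfl), zero_pow two_ne_zero]
    rw [e1]
    positivity
  | succ k =>
    rw [sum_iv_two' k j fun x0 => kF Λ a K F (k + 1) (x0, x1, x3) ^ 2]
    have h1 := line_kF1 (Λ := Λ) hB a K (by omega : k < n) (2 * j) x1 x3
    have h2 := line_kF1 (Λ := Λ) hB a K (by omega : k < n) (2 * j + 1) x1 x3
    rw [pow_succ]
    linarith

/-- the killed input vanishes on the stopped squares -/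
theorem kF_dead {Λ : ℝ} {a : ℤ × ℤ → ℝ} {K : ℕ} {F : ℕ → Pt → ℝ} {k : ℕ} {x0 x1 x3 : ℤ}
    (h : sst Λ a K k x1 x3) : kF Λ a K F k (x0, x1, x3) = 0 := by
  unfold H677.kF
  exact if_pos (Or.inr h)

end

end Vale.Agent.P141.H816
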