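import Vale.Agent.P141.H816.MkFDs

/-!
# P141, line (A): `FDat` for the definite cut families

* `fdat` : the families `cA`, `cb`, `mC` of `H401.CutData` over class data have the data `FDat`;
* `fdat_FD` : the same from the bundle `H816.FD`.
-/

namespace Vale.Agent.P141.H816

open Finset Matrix
open Vale.Agent.P075 (Ix val)
open Vale.Agent.P141.PL (Pt iv hs ix mem_iv ix_ix cx)
open Vale.Agent.P141.PL.H315 (Tri A2 avg)
open Vale.Agent.P141.H48 (US ES BSl sst)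
open Vale.Agent.P141.H103 (un QW QK PA PA_eq)
open Vale.Agent.P141.H205
open Vale.Agent.P141.H305 (Cls ClsM kapM)
open Vale.Agent.P141.H401 (Bun MkSt PartQ PartY mA mb mC qA qB qC cA cb b1)
open Vale.Agent.P141.H576 (QD GapFam Dd_sst QD_pack agree_kD mem_two)
open Vale.Agent.P141.H588G (S2)
open Vale.Agent.P141.H677 (fA fb fC kF KT)
open Vale.Agent.P141.H677.Sk (FamA FamV)
open Vale.Agent.P141.H769 (iv_pt)

noncomputable section

open scoped Classical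

theorem gapFam_mono {κ : Type*} [Fintype κ] [DecidableEq κ] {l : ℝ} {N : ℕ}
    {G K : ℤ → ℕ → ℤ → Matrix κ κ ℝ} {R S T t₀ : ℤ} {A : ℤ → ℕ → ℤ → ℤ → ℝ}
    {b : ℤ → ℕ → ℤ → ℤ → κ → ℝ} {qA qB : ℕ → ℤ → ℤ → ℤ → Prop} {gA gB cP gA' gB' cP' : ℝ}
    (f : GapFam l N G K R S T t₀ A b qA qB gA gB cP) (hA : gA ≤ gA') (hB : gB ≤ gB')
    (hP : cP ≤ cP') : GapFam l N G K R S T t₀ A b qA qB gA' gB' cP' :=
  { f with
    gA0 := f.gA0.trans_le hA
    gB0 := f.gB0.trans_le hB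
    capA := fun k hk i hi n hn m hm => (f.capA k hk i hi n hn m hm).trans
      (mul_le_mul_of_nonneg_right hA (by positivity))
    capB := fun k hk i hi n hn m hm => (f.capB k hk i hi n hn m hm).trans
      (mul_le_mul_of_nonneg_right hB (by positivity))
    packA := fun x₀ hx => (f.packA x₀ hx).trans (mul_le_mul_of_nonneg_right hP (by positivity))
    packB := fun x₀ hx => (f.packB x₀ hx).trans (mul_le_mul_of_nonneg_right hP (by positivity)) }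

/-- packing, the two cells in the other order -/
theorem QD_pack' {D : ℕ → ℤ → ℤ → Prop} (hD : H576.Dd D) {n : ℕ} {e cP : ℝ} {F : ℕ → Pt → ℝ}
    {Q : ℕ → Pt → Prop} (hB : BSl n e cP F Q) (x0 : ℤ) {K' : ℕ} (hK' : K' ≤ n) (r s : ℤ) :
    ∑ k ∈ range (K' + 1), ∑ r' ∈ iv (K' - k) r, ∑ s' ∈ iv (K' - k) s,
      (if QD D Q k (ix k x0) s' r' then (4 : ℝ) ^ k else 0) ≤ (cP + 2) * 4 ^ K' := by
  refine le_trans (le_of_eq ?_) (QD_pack hD hB x0 hK' s r)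
  exact sum_congr rfl fun k _ => sum_comm

section

variable {ι : Type} [Fintype ι] [DecidableEq ι] {n : ℕ} {ez cP : ℝ} {F : ℕ → Pt → ℝ}
  {Q : ℕ → Pt → Prop}

theorem mC_zero (p : H401.Num) (U : Tri) (K : ℕ) (v : ℤ → ℤ → ι → ℝ) (F : ℕ → Pt → ℝ) (x0 : ℤ) :
    mC p U K v F x0 0 = 0 := by
  funext z w
  show kF p.Lm U.2.1 K F 0 (x0, w, z) • v w z = 0
  unfold H677.kF
  rw [if_pos (Or.inl rfl), zero_smul]

theorem mC_agree (p : H401.Num) (U : Tri) (K : ℕ) (v : ℤ → ℤ → ι → ℝ) (hB : BSl n ez cP F Q)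
    {x0 : ℤ} {k : ℕ} (hk : k < n) {i m : ℤ} (hq : ¬ qC p U K Q k (ix k x0) i m) :
    ∀ z ∈ iv k i, ∀ w ∈ iv k m, mC p U K v F x0 (k + 1) z w = mC p U K v F x0 k z w := by
  intro z hz w hw
  have h := agree_kD (Dd_sst p.Lm U.2.1 K) hB hk hq hw hz
  have h' : kF p.Lm U.2.1 K F (k + 1) (x0, w, z) = kF p.Lm U.2.1 K F k (x0, w, z) := h
  show kF p.Lm U.2.1 K F (k + 1) (x0, w, z) • v w z = kF p.Lm U.2.1 K F k (x0, w, z) • v w z
  rw [h']

/-- mass of `C`, time `k + 1` -/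
theorem massC_one {p : H401.Num} {K : ℕ} {x : Pt} {s r P : ℝ} {U : Tri} {g : ℤ → ℤ → ℝ}
    {u v : ℤ → ℤ → ι → ℝ} (hB : BSl n ez cP F Q) (hez : 0 ≤ ez) (hΛ : 0 ≤ p.Lm) (hs : 0 ≤ s)
    (hK : K ≤ n) (hc : Cls K x s r P U g u v) : ∀ k < K, ∀ i : ℤ,
    ∀ z' ∈ iv (K - k) (ix K x.2.2), ∀ w' ∈ iv (K - k) (ix K x.1),
    ∑ x0 ∈ iv k i, ∑ z ∈ iv k z', ∑ w ∈ iv k w', mC p U K v F x0 (k + 1) z w ⬝ᵥ
      mC p U K v F x0 (k + 1) z w ≤ 4 * ez * p.Lm * s * 8 ^ k := by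
  intro k hk i z' hz' w' hw'
  have h := mass_kF (X := x.1) (Y := x.2.2) hB hez hΛ hs hK U.2.1 hc.U_v2 hk i hw' hz'
  refine le_trans (sum_le_sum fun x0 _ => ?_) h
  rw [sum_comm (s := iv k w')]
  refine sum_le_sum fun z hz => sum_le_sum fun w hw => ?_
  show (kF p.Lm U.2.1 K F (k + 1) (x0, w, z) • v w z) ⬝ᵥ
    (kF p.Lm U.2.1 K F (k + 1) (x0, w, z) • v w z) ≤ _
  rw [smul_dotProduct, dotProduct_smul, smul_eq_mul, smul_eq_mul, ← mul_assoc, ← sq]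
  refine mul_le_mul_of_nonneg_left (hc.v_le w ?_ z ?_) (sq_nonneg _)
  · rw [iv_pt]
    exact H576.root_mem hk.le hw' hw
  · rw [iv_pt]
    exact H576.root_mem hk.le hz' hz

end

/-- **The data of the flow part for the definite families.** -/
theorem fdat {c d Kt e cP : ℝ} (hd : 0 < d) (hKt : 0 < Kt) (he : 1 ≤ e) (hcP : 0 ≤ cP) :
    ∃ CN : ℝ, 1 ≤ CN ∧ ∀ p : H401.Num, p.c = c → p.d = d → p.e = e → p.cP = cP →
      0 < p.t → p.t ≤ 1 → ∀ (n : ℕ) (ez : ℝ) (F1 F2 F3 : ℕ → Pt → ℝ) (Q1 Q2 Q3 : ℕ → Pt → Prop),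
      US n (Kt * p.t ^ (1 - c)) e cP F1 → BSl n e cP F1 Q1 →
      US n (Kt * p.t ^ (1 - c)) e cP F3 → BSl n e cP F3 Q3 → 0 ≤ ez → BSl n ez cP F2 Q2 →
      ∀ K ≤ n, ∀ (x : Pt) (ι : Type) [Fintype ι] [DecidableEq ι] (s r P : ℝ) (U : Tri)
      (g : ℤ → ℤ → ℝ) (u v : ℤ → ℤ → ι → ℝ), 0 < s → Cls K x s r P U g u v →
      FDat p n ez CN F2 K x s r U v (qA p U K Q1) (qB p U K Q3) (qC p U K Q2)
        (cA p s r U K g F1 Q1) (cb p s r U K u F3 Q3) (mC p U K v F2) := by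
  obtain ⟨CA, hCA, H⟩ := H652.gapUN (c := c) hd hKt he hcP
  refine ⟨CA + 4 * e + cP + 4, by linarith, ?_⟩
  intro p hpc hpd hpe hpP ht ht1 n ez F1 F2 F3 Q1 Q2 Q3 hF1 hB1 hF3 hB3 hez hB2 K hK x ι _ _ s r P
    U g u v hs hc
  have hpos : 0 < p.t ^ (2 - 2 * c - 2 * d) * s ^ (3 / 2 : ℝ) :=
    mul_pos (Real.rpow_pos_of_pos ht _) (Real.rpow_pos_of_pos hs _)
  have hΛ : 0 < p.Lm := Real.rpow_pos_of_pos ht _
  have hLm : p.t ^ (-d) = p.Lm := by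
    rw [← hpd]
    rfl
  have hP : cP + 2 ≤ CA + 4 * e + cP + 4 := by linarith
  have hm : 4 * e * p.Lm * s ≤ (CA + 4 * e + cP + 4) * (p.t ^ (-p.d) * s) := by
    have h1 : 0 ≤ p.Lm * s := by positivity
    show 4 * e * p.Lm * s ≤ (CA + 4 * e + cP + 4) * (p.Lm * s)
    nlinarith
  have hmz : 4 * ez * p.Lm * s ≤ (CA + 4 * e + cP + 4) * (ez * (p.t ^ (-p.d) * s)) := by
    have h1 : 0 ≤ ez * (p.Lm * s) := by positivity
    show 4 * ez * p.Lm * s ≤ (CA + 4 * e + cP + 4) * (ez * (p.Lm * s))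
    nlinarith
  constructor
  · exact fun x0 => rfl
  · exact fun x0 => rfl
  · exact fun x0 => mC_zero p U K v F2 x0
  · intro k _ x0 i m hq z hz y hy
    have h := lowF_off (c := p.th s r ^ 2) (F := fun k => un (mA p U K g F1 x0 k))
      (Q := fun k n m => qA p U K Q1 k (ix k x0) n m) hq hz hy
    exact congrFun h ()
  · intro k _ x0 i m hq z hz y hy
    exact H80.lowG_off (Q := fun k n m => qB p U K Q3 k (ix k x0) n m) hq hz hy
  · intro k hk x0 i m hq z hz w hw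
    exact mC_agree p U K v hB2 (hk.trans_le hK) hq z hz w hw
  · exact fun i z y => Or.inl rfl
  · exact fun i z y => Or.inl rfl
  · exact fun i z y => Or.inl rfl
  · intro x0 K' hK' i m
    exact (QD_pack' (Dd_sst p.Lm U.2.2 K) hB1 x0 hK' i m).trans
      (mul_le_mul_of_nonneg_right hP (by positivity))
  · intro x0 K' hK' i m
    exact (QD_pack (Dd_sst p.Lm U.1 K) hB3 x0 hK' i m).trans
      (mul_le_mul_of_nonneg_right hP (by positivity))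
  · intro x0 K' hK' i m
    exact (QD_pack' (Dd_sst p.Lm U.2.1 K) hB2 x0 hK' i m).trans
      (mul_le_mul_of_nonneg_right hP (by positivity))
  · exact fun x0 k n' m' => cA_capS p s r U K g x0 k n' m'
  · exact fun x0 k n' m' => capS_time (F := fun k => un (cA p s r U K g F1 Q1 x0 k))
      (sq_nonneg _) rfl (fun k n m => cA_capS p s r U K g x0 k n m) k n' m'
  · exact fun x0 k n' m' => cb_capS p s r U K u x0 k n' m'
  · exact fun x0 k n' m' => capS_time (F := cb p s r U K u F3 Q3 x0)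
      (sq_nonneg _) rfl (fun k n m => cb_capS p s r U K u x0 k n m) k n' m'
  · intro k hk i n' hn m' hm'
    exact (massA_one hB1 (by linarith) hΛ.le hs.le hK hc k hk i n' hn m' hm').trans
      (mul_le_mul_of_nonneg_right hm (by positivity))
  · intro k hk i n' hn m' hm'
    exact (massb_one hB3 (by linarith) hΛ.le hs.le hK hc k hk i n' hn m' hm').trans
      (mul_le_mul_of_nonneg_right hm (by positivity))
  · intro k hk i n' hn m' hm'
    exact (massC_one hB2 hez hΛ.le hs.le hK hc k hk i n' hn m' hm').trans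
      (mul_le_mul_of_nonneg_right hmz (by positivity))
  · intro t₀
    have h := H p.t ht ht1 n F1 F3 Q1 Q3 hF1 hB1 hF3 hB3 K hK x ι s r P U g u v hs hc t₀
    rw [hLm] at h
    have h2 := H576.GapFam.cuts h (fun _ _ _ => Or.inl rfl) (fun _ _ _ => Or.inl rfl)
      (p.th s r ^ 2) (p.th s r ^ 2) (p.be s r ^ 2 / √(p.lam s r)) (KT (p.lam s r) u)
    have e0 : p.t ^ (2 - 2 * p.c - 2 * p.d) * s ^ (3 / 2 : ℝ) =
        p.t ^ (2 - 2 * c - 2 * d) * s ^ (3 / 2 : ℝ) := by rw [hpc, hpd]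
    rw [e0]
    exact gapFam_mono h2 (mul_le_mul_of_nonneg_right (by linarith) hpos.le)
      (mul_le_mul_of_nonneg_right (by linarith) hpos.le) hP
  · rfl
  · intro k hk j x1 x3
    exact line_kF1 hB2 U.2.1 K (hk.trans_le hK) j x1 x3
  · intro k hk j x1 x3
    exact line_kF0 hB2 hez U.2.1 K (hk.trans hK) j x1 x3

/-- **The data of the flow part from the bundle `H816.FD`.** -/
theorem fdat_FD {c d Kt e cP : ℝ} (hd : 0 < d) (hKt : 0 < Kt) (he : 1 ≤ e) (hcP : 0 ≤ cP) :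
    ∃ CN : ℝ, 1 ≤ CN ∧ ∀ p : H401.Num, p.c = c → p.d = d → p.e = e → p.cP = cP →
      0 < p.t → p.t ≤ 1 → ∀ (n : ℕ) (ez : ℝ) (F1 F2 F3 : ℕ → Pt → ℝ),
      US n (Kt * p.t ^ (1 - c)) e cP F1 → US n (Kt * p.t ^ (1 - c)) e cP F3 → ES n ez cP F2 →
      ∀ (o : ℤ), ∀ K ≤ n, ∀ (x : Pt) (ι : Type) [Fintype ι] [DecidableEq ι] (s r P : ℝ) (U : Tri)
      (g : ℤ → ℤ → ℝ) (u v : ℤ → ℤ → ι → ℝ) (A : FamA) (b C : FamV ι), 0 < s →
      Cls K x s r P U g u v → FD ι p n ez F1 F2 F3 o K x s r U g u v A b C →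
      ∃ QA QB QC : ℕ → ℤ → ℤ → ℤ → Prop, FDat p n ez CN F2 K x s r U v QA QB QC A b C := by
  obtain ⟨CN, hCN, H⟩ := fdat (c := c) hd hKt he hcP
  refine ⟨CN, hCN, ?_⟩
  intro p hpc hpd hpe hpP ht ht1 n ez F1 F2 F3 h1 h3 h2 o K hK x ι _ _ s r P U g u v A b C hs hc hD
  obtain ⟨Q1, Q2, Q3, q1, q2, q3, rfl, rfl, rfl⟩ := hD
  rw [hpe, hpP] at q1 q3
  rw [hpP] at q2
  exact ⟨_, _, _, H p hpc hpd hpe hpP ht ht1 n ez F1 F2 F3 Q1 Q2 Q3 h1 q1 h3 q3 h2.1 q2 K hK x ι s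
    r P U g u v hs hc⟩

end

end Vale.Agent.P141.H816
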