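import Vale.Agent.P141.H816.MkF

/-!
# P141, line (A): cut of a labelled path by arbitrary projections in the middle variable

`cutG Q P F` : at every square of `Q` the input `F (k + 1)` is multiplied by the projection
`P k n m` in the middle variable.  `H205.lowF` is the case of the spectral projections.

* `cutG_path`, `cutG_agr` : a path with the same affected squares;
* `cutG_cap` : caps of the input pass to the cut; `cutG_rows`, `cutG_row` : row energies;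
* `QW_cutG`, `QW_subG` : Gram matrices of the cut and of the rest; `own_cutG_le`, `own_subG_le`.
-/

namespace Vale.Agent.P141.H816

open Finset Matrix
open Vale.Agent.P075 (Ix val)
open Vale.Agent.P141.PL (Pt iv hs ix mem_iv ix_ix)
open Vale.Agent.P141.H103 (un QW)
open Vale.Agent.P141.H205
open Vale.Agent.P141.H736 (Path Agree sqb sqQ)
open Vale.Agent.P141.H958 (Aff s4 pwr mem_Aff)

noncomputable section

open scoped Classical

variable {κ : Type*} [Fintype κ]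

/-- matrices on the middle cells -/
abbrev Prj : Type := (k : ℕ) → ℤ → ℤ → Matrix (Ix k) (Ix k) ℝ

/-- symmetric projections -/
structure IsPrj (P : Prj) : Prop where
  tr : ∀ k n m, (P k n m)ᵀ = P k n m
  idem : ∀ k n m, P k n m * P k n m = P k n m

/-- the cut path -/
def cutG (Q : ℕ → ℤ → ℤ → Prop) (P : Prj) (F : ℕ → ℤ → ℤ → κ → ℝ) : ℕ → ℤ → ℤ → κ → ℝ
  | 0 => 0
  | k + 1 => fun x y => if Q k (ix k x) (ix k y) then
      cutv k (P k (ix k x) (ix k y)) (ix k y) (F (k + 1) x) y else cutG Q P F k x y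

variable {Q : ℕ → ℤ → ℤ → Prop} {P : Prj} {c : ℝ} {F : ℕ → ℤ → ℤ → κ → ℝ}

omit [Fintype κ] in
theorem cutG_zero : cutG Q P F 0 = 0 := rfl

omit [Fintype κ] in
theorem cutG_on {k : ℕ} {n m x y : ℤ} (hQ : Q k n m) (hx : x ∈ iv k n) (hy : y ∈ iv k m) :
    cutG Q P F (k + 1) x y = cutv k (P k n m) m (F (k + 1) x) y := by
  rw [mem_iv] at hx hy
  show (if Q k (ix k x) (ix k y) then
      cutv k (P k (ix k x) (ix k y)) (ix k y) (F (k + 1) x) y else cutG Q P F k x y) = _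
  rw [hx, hy, if_pos hQ]

omit [Fintype κ] in
theorem cutG_off {k : ℕ} {n m x y : ℤ} (hQ : ¬ Q k n m) (hx : x ∈ iv k n) (hy : y ∈ iv k m) :
    cutG Q P F (k + 1) x y = cutG Q P F k x y := by
  rw [mem_iv] at hx hy
  show (if Q k (ix k x) (ix k y) then
      cutv k (P k (ix k x) (ix k y)) (ix k y) (F (k + 1) x) y else cutG Q P F k x y) = _
  rw [hx, hy, if_neg hQ]

/-- the static cut of `H205` is a cut by spectral projections -/
theorem lowF_eq_cutG : lowF Q c F = cutG Q (fun k n m => prL k (F (k + 1)) c n m) F := by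
  funext k
  induction k with
  | zero => rfl
  | succ k ih =>
    funext x y
    show (if Q k (ix k x) (ix k y) then cutF c k (F (k + 1)) x y else lowF Q c F k x y) =
      if Q k (ix k x) (ix k y) then cutv k (prL k (F (k + 1)) c (ix k x) (ix k y)) (ix k y)
        (F (k + 1) x) y else cutG Q (fun k n m => prL k (F (k + 1)) c n m) F k x y
    rw [ih]
    rfl

omit [Fintype κ] in
theorem cutG_path (N : ℕ) (R S : ℤ) (l : κ) :
    Path N R S Q (fun k x y => cutG Q P F k x y l) := by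
  intro k _ n _ m _ hQ x hx y hy
  show cutG Q P F (k + 1) x y l = cutG Q P F k x y l
  rw [cutG_off hQ hx hy]

omit [Fintype κ] in
/-- where the input path `F₀` does not change, the cut of `F` on the squares of `F₀` does not
change; `F` vanishes at the time `1` where `F₀` does -/
theorem cutG_agr {F₀ : ℕ → ℤ → ℤ → κ → ℝ} (h0 : F₀ 0 = 0)
    (h1 : ∀ n m : ℤ, (∀ x ∈ iv 0 n, ∀ y ∈ iv 0 m, F₀ 1 x y = 0) →
      ∀ x ∈ iv 0 n, ∀ y ∈ iv 0 m, F 1 x y = 0) {k : ℕ} {n m : ℤ}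
    (h : ∀ x ∈ iv k n, ∀ y ∈ iv k m, F₀ (k + 1) x y = F₀ k x y) :
    ∀ x ∈ iv k n, ∀ y ∈ iv k m, cutG (chQ F₀) P F (k + 1) x y = cutG (chQ F₀) P F k x y := by
  intro x hx y hy
  rcases Nat.eq_zero_or_pos k with rfl | hk
  · rw [cutG_on (chQ_zero F₀ n m) hx hy, cutG_zero]
    refine cutv_zero 0 _ m (fun y' hy' => h1 n m (fun a ha b hb => ?_) x hx y' hy') y
    rw [show F₀ 1 a b = F₀ 0 a b from h a ha b hb, h0]
    rfl
  · exact cutG_off (not_chQ' hk.ne' h) hx hy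

/-! ### Caps -/

/-- the quadratic form of the Gram matrix -/
theorem form_GQ (k : ℕ) (b : ℤ → ℤ → κ → ℝ) (n m : ℤ) (w : Ix k → ℝ) :
    w ⬝ᵥ GQ k b n m *ᵥ w = ((2 : ℝ) ^ k * 2 ^ k)⁻¹ *
      ∑ x ∈ iv k n, ∑ l, (∑ j, w j * b x (2 ^ k * m + val k j) l) ^ 2 := by
  have e3 : ∀ x, ∑ l, (∑ j, w j * b x (2 ^ k * m + val k j) l) ^ 2 =
      ∑ j : Ix k, ∑ j' : Ix k, w j * w j' *
        (b x (2 ^ k * m + val k j) ⬝ᵥ b x (2 ^ k * m + val k j')) := by
    intro x
    have e4 : ∀ l, (∑ j, w j * b x (2 ^ k * m + val k j) l) ^ 2 =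
        ∑ j : Ix k, ∑ j' : Ix k, w j * w j' *
          (b x (2 ^ k * m + val k j) l * b x (2 ^ k * m + val k j') l) := by
      intro l
      rw [sq, Finset.sum_mul_sum]
      exact sum_congr rfl fun j _ => sum_congr rfl fun j' _ => by ring
    simp only [e4]
    rw [sum_comm]
    refine sum_congr rfl fun j _ => ?_
    rw [sum_comm]
    refine sum_congr rfl fun j' _ => ?_
    rw [dotProduct, mul_sum]
  have hG : ∀ j j' : Ix k, GQ k b n m j j' = ((2 : ℝ) ^ k * 2 ^ k)⁻¹ *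
      ∑ x ∈ iv k n, b x (2 ^ k * m + val k j) ⬝ᵥ b x (2 ^ k * m + val k j') := by
    intro j j'
    unfold GQ H103.QW
    congr 1
    refine sum_congr rfl fun x _ => ?_
    rw [one_mulVec]
  have e5 : w ⬝ᵥ GQ k b n m *ᵥ w = ∑ j : Ix k, w j * ∑ j' : Ix k, GQ k b n m j j' * w j' := rfl
  rw [e5]
  simp only [e3, hG]
  rw [sum_comm, mul_sum]
  refine sum_congr rfl fun j _ => ?_
  rw [sum_comm, mul_sum, mul_sum]
  refine sum_congr rfl fun j' _ => ?_
  rw [← mul_sum]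
  ring

/-- the cap as a property of the Gram matrix, converse of `capS_iff` -/
theorem form_capS {k : ℕ} {b : ℤ → ℤ → κ → ℝ} {n m : ℤ} (h : CapS c k k b n m) (w : Ix k → ℝ) :
    w ⬝ᵥ GQ k b n m *ᵥ w ≤ c * (w ⬝ᵥ w) := by
  set v : ℤ → ℝ := fun y => ∑ j', if 2 ^ k * m + (val k j' : ℤ) = y then w j' else 0 with hv
  have hvj : ∀ j : Ix k, v (2 ^ k * m + val k j) = w j := by
    intro j
    rw [hv]
    beta_reduce
    rw [sum_eq_single j]
    · rw [if_pos rfl]
    · intro j' _ hj'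
      rw [if_neg]
      intro h2
      apply hj'
      apply H205.val_inj
      have : ((val k j' : ℕ) : ℤ) = (val k j : ℕ) := by linarith
      exact_mod_cast this
    · intro h2
      exact absurd (mem_univ _) h2
  have h1 := h v
  have e1 : ∑ y ∈ iv k m, v y ^ 2 = w ⬝ᵥ w := by
    rw [PL.H588.sum_iv, dotProduct]
    exact sum_congr rfl fun j _ => by rw [hvj, sq]
  have e2 : ∑ x ∈ iv k n, ∑ l, (∑ y ∈ iv k m, v y * b x y l) ^ 2 =
      ∑ x ∈ iv k n, ∑ l, (∑ j, w j * b x (2 ^ k * m + val k j) l) ^ 2 := by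
    refine sum_congr rfl fun x _ => sum_congr rfl fun l _ => ?_
    rw [PL.H588.sum_iv]
    congr 1
    exact sum_congr rfl fun j _ => by rw [hvj]
  rw [e1, e2] at h1
  rw [form_GQ, inv_mul_le_iff₀ (by positivity)]
  refine h1.trans (le_of_eq ?_)
  ring

/-- weighted Gram matrix of the cut on an affected square -/
theorem QW_cutG (hP : IsPrj P) {k : ℕ} {n m : ℤ} (hQ : Q k n m) (M : ℤ → Matrix κ κ ℝ) :
    QW k k (cutG Q P F (k + 1)) M n m = P k n m * QW k k (F (k + 1)) M n m * P k n m := by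
  have h := QW_cut k k (P k n m) (F (k + 1)) M n m
  rw [hP.tr] at h
  rw [← h]
  ext j j'
  unfold H103.QW
  congr 1
  refine sum_congr rfl fun x hx => ?_
  rw [cutG_on hQ hx (val_mem k m j), cutG_on hQ hx (val_mem k m j')]

/-- weighted Gram matrix of the rest on an affected square -/
theorem QW_subG (hP : IsPrj P) {k : ℕ} {n m : ℤ} (hQ : Q k n m) (M : ℤ → Matrix κ κ ℝ) :
    QW k k (fun x y l => F (k + 1) x y l - cutG Q P F (k + 1) x y l) M n m =
      (1 - P k n m) * QW k k (F (k + 1)) M n m * (1 - P k n m) := by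
  have h := QW_cut k k (1 - P k n m) (F (k + 1)) M n m
  have ht : (1 - P k n m)ᵀ = 1 - P k n m := by
    rw [transpose_sub, transpose_one, hP.tr]
  rw [ht] at h
  rw [← h]
  ext j j'
  unfold H103.QW
  congr 1
  refine sum_congr rfl fun x hx => ?_
  have f : ∀ j : Ix k, (fun l => F (k + 1) x (2 ^ k * m + val k j) l -
      cutG Q P F (k + 1) x (2 ^ k * m + val k j) l) =
      cutv k (1 - P k n m) m (F (k + 1) x) (2 ^ k * m + val k j) := by
    intro j
    funext l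
    rw [cutG_on hQ hx (val_mem k m j), cutv_one]
  beta_reduce
  rw [f j, f j']

theorem GQ_cutG (hP : IsPrj P) {k : ℕ} {n m : ℤ} (hQ : Q k n m) :
    GQ k (cutG Q P F (k + 1)) n m = P k n m * GQ k (F (k + 1)) n m * P k n m :=
  QW_cutG hP hQ _

theorem GQ_subG (hP : IsPrj P) {k : ℕ} {n m : ℤ} (hQ : Q k n m) :
    GQ k (fun x y l => F (k + 1) x y l - cutG Q P F (k + 1) x y l) n m =
      (1 - P k n m) * GQ k (F (k + 1)) n m * (1 - P k n m) :=
  QW_subG hP hQ _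

theorem proj_sq_le {k : ℕ} {P : Matrix (Ix k) (Ix k) ℝ} (ht : Pᵀ = P) (hi : P * P = P)
    (w : Ix k → ℝ) : (P *ᵥ w) ⬝ᵥ (P *ᵥ w) ≤ w ⬝ᵥ w := by
  have h := proj_vec_le ht hi w
  have e1 : ∀ j0, ∑ j, w j * P j j0 = (P *ᵥ w) j0 := by
    intro j0
    rw [mulVec, dotProduct]
    refine sum_congr rfl fun j _ => ?_
    have : P j j0 = P j0 j := by
      conv_lhs => rw [← ht]
      rfl
    rw [this, mul_comm]
  simp only [e1] at h
  rw [dotProduct, dotProduct]
  refine le_trans (le_of_eq ?_) (h.trans (le_of_eq ?_))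
  · exact sum_congr rfl fun j _ => (sq _).symm
  · exact sum_congr rfl fun j _ => sq _

/-- the cap at an affected square -/
theorem cutG_cap_on (hP : IsPrj P) (hc : 0 ≤ c) {k : ℕ} {n m : ℤ} (hQ : Q k n m)
    (h : CapS c k k (F (k + 1)) n m) : CapS c k k (cutG Q P F (k + 1)) n m := by
  refine capS_iff fun w => ?_
  rw [GQ_cutG hP hQ]
  have e : w ⬝ᵥ (P k n m * GQ k (F (k + 1)) n m * P k n m) *ᵥ w =
      (P k n m *ᵥ w) ⬝ᵥ GQ k (F (k + 1)) n m *ᵥ (P k n m *ᵥ w) := by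
    rw [← mulVec_mulVec, ← mulVec_mulVec, dotProduct_mulVec, ← mulVec_transpose, hP.tr]
  rw [e]
  refine (form_capS h _).trans ?_
  exact mul_le_mul_of_nonneg_left (proj_sq_le (hP.tr k n m) (hP.idem k n m) w) hc

/-- **caps pass to the cut**, every square of scale `k` at the time `k + 1` -/
theorem cutG_cap (hP : IsPrj P) (hc : 0 ≤ c) (hQ0 : ∀ n m, Q 0 n m)
    (h : ∀ k n m, Q k n m → CapS c k k (F (k + 1)) n m) :
    ∀ (k : ℕ) (n m : ℤ), CapS c k k (cutG Q P F (k + 1)) n m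
  | 0, n, m => cutG_cap_on hP hc (hQ0 n m) (h 0 n m (hQ0 n m))
  | k + 1, n, m => by
      by_cases hQ : Q (k + 1) n m
      · exact cutG_cap_on hP hc hQ (h _ n m hQ)
      · have h1 : CapS c (k + 1) (k + 1) (cutG Q P F (k + 1)) n m :=
          capS_four fun n' _ m' _ => cutG_cap hP hc hQ0 h k n' m'
        exact capS_congr (fun x hx y hy => (cutG_off hQ hx hy).symm) h1

/-- time and scale `k` -/
theorem cutG_cap' (hP : IsPrj P) (hc : 0 ≤ c) (hQ0 : ∀ n m, Q 0 n m)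
    (h : ∀ k n m, Q k n m → CapS c k k (F (k + 1)) n m) (k : ℕ) (n m : ℤ) :
    CapS c k k (cutG Q P F k) n m := by
  cases k with
  | zero =>
    intro w
    have e : ∑ x ∈ iv 0 n, ∑ l : κ, (∑ y ∈ iv 0 m, w y * cutG Q P F 0 x y l) ^ 2 = 0 := by
      rw [cutG_zero]
      simp
    rw [e]
    exact mul_nonneg (by positivity) (sum_nonneg fun _ _ => sq_nonneg _)
  | succ j => exact capS_four fun n' _ m' _ => cutG_cap hP hc hQ0 h j n' m'

/-! ### Rows -/

theorem cutG_rows_on (hP : IsPrj P) {k : ℕ} {n m : ℤ} (hQ : Q k n m) (w : κ → ℝ) {x : ℤ}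
    (hx : x ∈ iv k n) : ∑ y ∈ iv k m, (cutG Q P F (k + 1) x y ⬝ᵥ w) ^ 2 ≤
      ∑ y ∈ iv k m, (F (k + 1) x y ⬝ᵥ w) ^ 2 := by
  have h := cut_rows (hP.tr k n m) (hP.idem k n m) m {x} (fun _ => w) (F (k + 1))
  simp only [sum_singleton] at h
  have e : ∀ (v : κ → ℝ), ∑ l, w l * v l = v ⬝ᵥ w := fun v => by
    rw [dotProduct_comm]
    rfl
  simp only [e] at h
  refine le_trans (le_of_eq ?_) h
  refine sum_congr rfl fun y hy => ?_
  rw [cutG_on hQ hx hy]

/-- **rows**, every square of scale `k` at the time `k + 1`; the input changes only on `Q` -/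
theorem cutG_rows (hP : IsPrj P) (hQ0 : ∀ n m, Q 0 n m)
    (hF : ∀ k n m, ¬ Q k n m → ∀ x ∈ iv k n, ∀ y ∈ iv k m, F (k + 1) x y = F k x y)
    (w : κ → ℝ) : ∀ (k : ℕ) (n m : ℤ), ∀ x ∈ iv k n,
    ∑ y ∈ iv k m, (cutG Q P F (k + 1) x y ⬝ᵥ w) ^ 2 ≤ ∑ y ∈ iv k m, (F (k + 1) x y ⬝ᵥ w) ^ 2 := by
  intro k
  induction k with
  | zero => exact fun n m x hx => cutG_rows_on hP (hQ0 n m) w hx
  | succ k ih =>
    intro n m x hx
    by_cases hQ : Q (k + 1) n m
    · exact cutG_rows_on hP hQ w hx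
    · have e1 : ∀ y ∈ iv (k + 1) m, (cutG Q P F (k + 1 + 1) x y ⬝ᵥ w) ^ 2 =
          (cutG Q P F (k + 1) x y ⬝ᵥ w) ^ 2 := fun y hy => by
        rw [cutG_off hQ hx hy]
      have e2 : ∀ y ∈ iv (k + 1) m, (F (k + 1 + 1) x y ⬝ᵥ w) ^ 2 = (F (k + 1) x y ⬝ᵥ w) ^ 2 :=
        fun y hy => by rw [hF (k + 1) n m hQ x hx y hy]
      rw [sum_congr rfl e1, sum_congr rfl e2,
        sum_iv_two' k m fun y => (cutG Q P F (k + 1) x y ⬝ᵥ w) ^ 2,
        sum_iv_two' k m fun y => (F (k + 1) x y ⬝ᵥ w) ^ 2]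
      have hx1 : x ∈ iv k (ix k x) := mem_iv.2 rfl
      exact add_le_add (ih _ _ x hx1) (ih _ _ x hx1)

/-- row energies as sums over the labels -/
theorem sum_dot_single {Y : Finset ℤ} (G : ℤ → κ → ℝ) :
    ∑ y ∈ Y, G y ⬝ᵥ G y = ∑ l, ∑ y ∈ Y, (G y ⬝ᵥ Pi.single l 1) ^ 2 := by
  rw [sum_comm]
  refine sum_congr rfl fun y _ => ?_
  rw [dotProduct]
  refine sum_congr rfl fun l _ => ?_
  rw [dotProduct_single, mul_one, sq]

theorem cutG_row (hP : IsPrj P) (hQ0 : ∀ n m, Q 0 n m)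
    (hF : ∀ k n m, ¬ Q k n m → ∀ x ∈ iv k n, ∀ y ∈ iv k m, F (k + 1) x y = F k x y)
    (k : ℕ) (m x : ℤ) :
    ∑ y ∈ iv k m, cutG Q P F (k + 1) x y ⬝ᵥ cutG Q P F (k + 1) x y ≤
      ∑ y ∈ iv k m, F (k + 1) x y ⬝ᵥ F (k + 1) x y := by
  have hx1 : x ∈ iv k (ix k x) := mem_iv.2 rfl
  rw [sum_dot_single, sum_dot_single]
  exact sum_le_sum fun l _ => cutG_rows hP hQ0 hF (Pi.single l 1) k _ m x hx1

/-! ### Own energies -/

/-- own energy of the cut, symmetric weight -/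
theorem own_cutG_le (hP : IsPrj P) {k : ℕ} {n m : ℤ} (hQ : Q k n m) {M : ℤ → Matrix κ κ ℝ}
    (hM : ∀ x, (M x)ᵀ = M x) :
    (QW k k (cutG Q P F (k + 1)) M n m * QW k k (cutG Q P F (k + 1)) M n m).trace ≤
      (QW k k (F (k + 1)) M n m * QW k k (F (k + 1)) M n m).trace := by
  rw [QW_cutG hP hQ]
  exact tr_cut_le (hP.tr k n m) (hP.idem k n m) (H103.QW_symm hM n m)

theorem compl_idem {k : ℕ} {P : Matrix (Ix k) (Ix k) ℝ} (hi : P * P = P) :
    (1 - P) * (1 - P) = 1 - P := by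
  rw [Matrix.sub_mul, Matrix.mul_sub, Matrix.mul_sub, hi, Matrix.one_mul, Matrix.mul_one,
    Matrix.one_mul, sub_self, sub_zero]

/-- own energy of the rest, symmetric weight -/
theorem own_subG_le (hP : IsPrj P) {k : ℕ} {n m : ℤ} (hQ : Q k n m) {M : ℤ → Matrix κ κ ℝ}
    (hM : ∀ x, (M x)ᵀ = M x) :
    (QW k k (fun x y l => F (k + 1) x y l - cutG Q P F (k + 1) x y l) M n m *
      QW k k (fun x y l => F (k + 1) x y l - cutG Q P F (k + 1) x y l) M n m).trace ≤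
      (QW k k (F (k + 1)) M n m * QW k k (F (k + 1)) M n m).trace := by
  rw [QW_subG hP hQ]
  have ht : (1 - P k n m)ᵀ = 1 - P k n m := by rw [transpose_sub, transpose_one, hP.tr]
  exact tr_cut_le ht (compl_idem (hP.idem k n m)) (H103.QW_symm hM n m)

end

end Vale.Agent.P141.H816
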