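import Vale.Agent.P141.H401.CutData
import Vale.Agent.P141.H576.MkZ
import Vale.Agent.P141.H652.RedI
import Vale.Agent.P141.H816.CutG

/-!
# P141, line (A): the bundle of the flow part

`FD` : the families are the definite cut families of `H401.CutData`; `mkF : MkSt FD`.
`FDat` : what the leaves of the flow part consume, one constant `CN`; `fdat` : it holds for the
families of `FD` over class data, `CN` depends on `c, d, Kt, e, cP` only.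
-/

namespace Vale.Agent.P141.H816

open Finset Matrix
open Vale.Agent.P075 (Ix val)
open Vale.Agent.P141.PL (Pt iv hs ix mem_iv ix_ix cx)
open Vale.Agent.P141.PL.H315 (Tri A2 avg)
open Vale.Agent.P141.H48 (US ES BSl sst)
open Vale.Agent.P141.H103 (un QW)
open Vale.Agent.P141.H205
open Vale.Agent.P141.H305 (Cls ClsM kapM)
open Vale.Agent.P141.H401 (Bun MkSt mA mb mC qA qB qC cA cb b1)
open Vale.Agent.P141.H576 (QD GapFam)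
open Vale.Agent.P141.H677 (fA fb fC kF KT)
open Vale.Agent.P141.H677.Sk (FamA FamV)

noncomputable section

open scoped Classical

variable {ι : Type} [Fintype ι] [DecidableEq ι]

/-- **The bundle of the flow part**: the definite cut families. -/
def FD : Bun := fun _ _ _ p n ez F1 F2 F3 _ K _ s r U g u v A b C =>
  ∃ Q1 Q2 Q3 : ℕ → Pt → Prop, BSl n p.e p.cP F1 Q1 ∧ BSl n ez p.cP F2 Q2 ∧
    BSl n p.e p.cP F3 Q3 ∧ A = cA p s r U K g F1 Q1 ∧ b = cb p s r U K u F3 Q3 ∧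
    C = mC p U K v F2

theorem mkF : MkSt FD := by
  unfold MkSt H401.PartQ H401.PartY
  intro a _ _
  refine ⟨1, one_pos, fun e0 _ _ => ⟨1, one_pos, fun k8 _ _ => ⟨1, one_pos, fun k3 _ _ => ?_⟩⟩⟩
  refine ⟨1, 1, 1, 1, one_pos, one_pos, one_pos, one_pos, fun c _ _ d _ _ Kt e cP L _ _ _ _ =>
    ⟨1, le_rfl, 0, le_rfl, ?_⟩⟩
  intro t _ _ n ez F1 F2 F3 _ _ _ o _ K _ x ι _ _ s r U g u v _ _ _ Q1 Q2 Q3 q1 q2 q3
  exact ⟨Q1, Q2, Q3, q1, q2, q3, rfl, rfl, rfl⟩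

/-- **What the leaves of the flow part consume.**  `A x₀ k z y`, `b x₀ k w y`, `C x₀ k z w`;
`QA k i z y`, `QB k i w y`, `QC k i z w` affected squares, `i` the cell of `x₀`; `CN` a constant. -/
structure FDat (p : H401.Num) (n : ℕ) (ez CN : ℝ) (F2 : ℕ → Pt → ℝ) (K : ℕ) (x : Pt) (s r : ℝ)
    (U : Tri) (v : ℤ → ℤ → ι → ℝ) (QA QB QC : ℕ → ℤ → ℤ → ℤ → Prop) (A : FamA)
    (b C : FamV ι) : Prop where
  /-- time `0` -/
  zA : ∀ x0, A x0 0 = 0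
  zB : ∀ x0, b x0 0 = 0
  zC : ∀ x0, C x0 0 = 0
  /-- agreement off the affected squares, pointwise -/
  agA : ∀ k < K, ∀ x0 i m, ¬ QA k (ix k x0) i m → ∀ z ∈ iv k i, ∀ y ∈ iv k m,
    A x0 (k + 1) z y = A x0 k z y
  agB : ∀ k < K, ∀ x0 i m, ¬ QB k (ix k x0) i m → ∀ w ∈ iv k i, ∀ y ∈ iv k m,
    b x0 (k + 1) w y = b x0 k w y
  agC : ∀ k < K, ∀ x0 i m, ¬ QC k (ix k x0) i m → ∀ z ∈ iv k i, ∀ w ∈ iv k m,
    C x0 (k + 1) z w = C x0 k z w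
  /-- the points are affected -/
  qA0 : ∀ i z y, QA 0 i z y
  qB0 : ∀ i w y, QB 0 i w y
  qC0 : ∀ i z w, QC 0 i z w
  /-- packing on every square -/
  packA : ∀ x0 : ℤ, ∀ K' ≤ n, ∀ i m : ℤ, ∑ k ∈ range (K' + 1), ∑ i' ∈ iv (K' - k) i,
    ∑ m' ∈ iv (K' - k) m, (if QA k (ix k x0) i' m' then (4 : ℝ) ^ k else 0) ≤ CN * 4 ^ K'
  packB : ∀ x0 : ℤ, ∀ K' ≤ n, ∀ i m : ℤ, ∑ k ∈ range (K' + 1), ∑ i' ∈ iv (K' - k) i,
    ∑ m' ∈ iv (K' - k) m, (if QB k (ix k x0) i' m' then (4 : ℝ) ^ k else 0) ≤ CN * 4 ^ K'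
  packC : ∀ x0 : ℤ, ∀ K' ≤ n, ∀ i m : ℤ, ∑ k ∈ range (K' + 1), ∑ i' ∈ iv (K' - k) i,
    ∑ m' ∈ iv (K' - k) m, (if QC k (ix k x0) i' m' then (4 : ℝ) ^ k else 0) ≤ CN * 4 ^ K'
  /-- operator caps at one `x₀`, outer variable `z` or `w`, middle variable `y` -/
  capA : ∀ x0 k i m, CapS (p.th s r ^ 2) k k (un (A x0 (k + 1))) i m
  capA' : ∀ x0 k i m, CapS (p.th s r ^ 2) k k (un (A x0 k)) i m
  capB : ∀ x0 k i m, CapS (p.th s r ^ 2) k k (b x0 (k + 1)) i m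
  capB' : ∀ x0 k i m, CapS (p.th s r ^ 2) k k (b x0 k) i m
  /-- masses, sum over `x₀` -/
  massA : ∀ k < K, ∀ i, ∀ z' ∈ iv (K - k) (ix K x.2.2), ∀ y' ∈ iv (K - k) (ix K x.2.1),
    ∑ x0 ∈ iv k i, ∑ z ∈ iv k z', ∑ y ∈ iv k y', A x0 (k + 1) z y ^ 2 ≤
      CN * (p.t ^ (-p.d) * s) * 8 ^ k
  massB : ∀ k < K, ∀ i, ∀ w' ∈ iv (K - k) (ix K x.1), ∀ y' ∈ iv (K - k) (ix K x.2.1),
    ∑ x0 ∈ iv k i, ∑ w ∈ iv k w', ∑ y ∈ iv k y', b x0 (k + 1) w y ⬝ᵥ b x0 (k + 1) w y ≤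
      CN * (p.t ^ (-p.d) * s) * 8 ^ k
  massC : ∀ k < K, ∀ i, ∀ z' ∈ iv (K - k) (ix K x.2.2), ∀ w' ∈ iv (K - k) (ix K x.1),
    ∑ x0 ∈ iv k i, ∑ z ∈ iv k z', ∑ w ∈ iv k w', C x0 (k + 1) z w ⬝ᵥ C x0 (k + 1) z w ≤
      CN * (ez * (p.t ^ (-p.d) * s)) * 8 ^ k
  /-- the static pair, no weight -/
  gap : ∀ t₀ : ℤ, GapFam 1 K (fun _ _ _ => (0 : Matrix ι ι ℝ)) (fun _ _ _ => 1) (ix K x.2.2)
    (ix K x.2.1) (ix K x.1) t₀ A b QA QB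
    (CN * (p.t ^ (2 - 2 * p.c - 2 * p.d) * s ^ (3 / 2 : ℝ)))
    (CN * (p.t ^ (2 - 2 * p.c - 2 * p.d) * s ^ (3 / 2 : ℝ))) CN
  /-- the third family is the killed companion -/
  eC : C = mC p U K v F2
  /-- its lines in `x₀`, time `k + 1` on cells of scale `k` and time `k` on cells of scale `k` -/
  line : ∀ k < K, ∀ j x1 x3, ∑ x0 ∈ iv k j, kF p.Lm U.2.1 K F2 (k + 1) (x0, x1, x3) ^ 2 ≤
    ez * 2 ^ k
  line' : ∀ k ≤ K, ∀ j x1 x3, ∑ x0 ∈ iv k j, kF p.Lm U.2.1 K F2 k (x0, x1, x3) ^ 2 ≤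
    ez * 2 ^ k

/-! ### The cuts -/

theorem lowG_eq_cutG {κ : Type*} [Fintype κ] (Q : ℕ → ℤ → ℤ → Prop) (P : Prj)
    (F : ℕ → ℤ → ℤ → κ → ℝ) : H80.lowG Q P F = cutG Q P F := by
  funext k
  induction k with
  | zero => rfl
  | succ k ih =>
    funext x y
    show (if Q k (ix k x) (ix k y) then cutv k (P k (ix k x) (ix k y)) (ix k y) (F (k + 1) x) y
      else H80.lowG Q P F k x y) = if Q k (ix k x) (ix k y) then
        cutv k (P k (ix k x) (ix k y)) (ix k y) (F (k + 1) x) y else cutG Q P F k x y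
    rw [ih]

theorem isPrj_prW {κ : Type*} [Fintype κ] [DecidableEq κ] (K : ℤ → ℕ → ℤ → Matrix κ κ ℝ) (c : ℝ)
    (F : ℕ → ℤ → ℤ → κ → ℝ) : IsPrj (H80.prW K c F) :=
  ⟨H80.prW_tr K c F, H80.prW_idem K c F⟩

theorem isPrj_prL {κ : Type*} [Fintype κ] (c : ℝ) (F : ℕ → ℤ → ℤ → κ → ℝ) :
    IsPrj (fun k n m => prL k (F (k + 1)) c n m) :=
  ⟨fun _ _ _ => lowP_transpose _ _, fun _ _ _ => lowP_idem _ _⟩

theorem lowW_eq_cutG {κ : Type*} [Fintype κ] [DecidableEq κ] (Q : ℕ → ℤ → ℤ → Prop)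
    (K : ℤ → ℕ → ℤ → Matrix κ κ ℝ) (c : ℝ) (F : ℕ → ℤ → ℤ → κ → ℝ) :
    H80.lowW Q K c F = cutG Q (H80.prW K c F) F := lowG_eq_cutG Q _ F

end

end Vale.Agent.P141.H816
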