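import Vale.Agent.P141.H808.NumCA
import Vale.Agent.P141.H816.FDatM
import Vale.Agent.P141.H205.HNum2
import Vale.Agent.P141.H652.LabL

/-!
# P141, line (A), increasing part: the numbers of the scalar slot (`NumA`) at class data

* `capS_swap`, `psd_rect` : caps of the transposed slot, rectangles;
* `en_le_pwr`, `born_le_pwr` : energies at all times from the energies of the affected squares;
* `cr_sum` : energy on the nodes where the third family is affected, sum over `x0`;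
* `numA_cls`, `numAQ` : the fields `NumA` of `H808.NumCA`.
-/

namespace Vale.Agent.P141.H816.NI

open Finset Matrix
open Vale.Agent.P075 (Ix val)
open Vale.Agent.P141.PL (Pt iv hs ix mem_iv ix_ix cx card_iv)
open Vale.Agent.P141.PL.H588 (Xg Xg_apply Xg_psd Pl)
open Vale.Agent.P141.PL.H315 (Tri A2 avg)
open Vale.Agent.P141.H48 (US ES BSl BUn sst)
open Vale.Agent.P141.H103 (un QW QK PA PA_eq GW)
open Vale.Agent.P141.H205
open Vale.Agent.P141.H736 (Path Agree sqb sqQ sqb_nonneg sqb_eq)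
open Vale.Agent.P141.H958 (pwr pwr_nonneg sqb_swap)
open Vale.Agent.P141.H305 (Cls ClsM kapM)
open Vale.Agent.P141.H401 (mA mb mC qA qB qC cA cb b1)
open Vale.Agent.P141.H576 (QD Dd_sst)
open Vale.Agent.P141.H677 (fA fb fC kF KT rt cP)
open Vale.Agent.P141.H505.Sk1 (Ch NumA)
open Vale.Agent.P141.H44.Ti (At Cs Aw Cw)
open Vale.Agent.P141.H408 (PairQ C1 tauI)

noncomputable section

open scoped Classical

/-! ### Caps -/

/-- the cap of the transposed slot -/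
theorem capS_swap {c : ℝ} {k : ℕ} {F : ℤ → ℤ → ℝ} {n m : ℤ} (hc : 0 ≤ c)
    (h : CapS c k k (un F) n m) : CapS c k k (un fun y z => F z y) m n := by
  intro w
  have e0 : ∀ (X : ℤ → ℤ → ℝ) (x : ℤ) (v : ℤ → ℝ) (q : ℤ),
      ∑ l : Unit, (∑ y ∈ iv k q, v y * un X x y l) ^ 2 = (∑ y ∈ iv k q, v y * X x y) ^ 2 := by
    intro X x v q
    rw [Fintype.sum_unique]
    rfl
  have h1 := h fun y => ∑ x ∈ iv k n, w x * F x y
  simp only [e0] at h1 ⊢
  set g : ℤ → ℝ := fun y => ∑ x ∈ iv k n, w x * F x y with hg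
  set S : ℝ := ∑ y ∈ iv k m, g y ^ 2 with hS
  set W : ℝ := ∑ x ∈ iv k n, w x ^ 2 with hW
  have hS0 : 0 ≤ S := sum_nonneg fun _ _ => sq_nonneg _
  have hW0 : 0 ≤ W := sum_nonneg fun _ _ => sq_nonneg _
  have hk : (0 : ℝ) < 2 ^ k * 2 ^ k := by positivity
  have e1 : S = ∑ x ∈ iv k n, w x * ∑ y ∈ iv k m, g y * F x y := by
    rw [hS]
    simp only [mul_sum]
    rw [sum_comm]
    refine sum_congr rfl fun y _ => ?_
    rw [sq]
    conv_lhs => rw [hg]
    simp only [sum_mul]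
    refine sum_congr rfl fun x _ => ?_
    ring
  have e2 : S ^ 2 ≤ W * (c * (2 ^ k * 2 ^ k) * S) := by
    rw [e1]
    refine (sum_mul_sq_le_sq_mul_sq _ _ _).trans ?_
    rw [← e1]
    exact mul_le_mul_of_nonneg_left h1 hW0
  show S ≤ c * (2 ^ k * 2 ^ k) * W
  rcases hS0.eq_or_lt with h0 | h0
  · rw [← h0]
    positivity
  · have e3 : S * S ≤ (c * (2 ^ k * 2 ^ k) * W) * S := by nlinarith
    exact le_of_mul_le_mul_right e3 h0

/-- the quadratic form of `QW a k` without weight -/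
theorem form_QW1 {κ : Type*} [Fintype κ] [DecidableEq κ] (a k : ℕ) (b : ℤ → ℤ → κ → ℝ) (n m : ℤ)
    (w : Ix k → ℝ) : w ⬝ᵥ QW a k b (fun _ => 1) n m *ᵥ w = ((2 : ℝ) ^ a * 2 ^ k)⁻¹ *
      ∑ x ∈ iv a n, ∑ l, (∑ j, w j * b x (2 ^ k * m + val k j) l) ^ 2 := by
  have e3 : ∀ x, ∑ l, (∑ j, w j * b x (2 ^ k * m + val k j) l) ^ 2 =
      ∑ j : Ix k, ∑ j' : Ix k, w j * w j' *
        (b x (2 ^ k * m + val k j) ⬝ᵥ b x (2 ^ k * m + val k j')) := by
    intro x
    have e4 : ∀ l, (∑ j, w j * b x (2 ^ k * m + val k j) l) ^ 2 =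
        ∑ j : Ix k, ∑ j' : Ix k, w j * w j' *
          (b x (2 ^ k * m + val k j) l * b x (2 ^ k * m + val k j') l) := by
      intro l
      rw [sq, Finset.sum_mul_sum]
      exact sum_congr rfl fun j _ => sum_congr rfl fun j' _ => by ring
    simp only [e4]
    rw [sum_comm]
    refine sum_congr rfl fun j _ => ?_
    rw [sum_comm]
    refine sum_congr rfl fun j' _ => ?_
    rw [dotProduct, mul_sum]
  have hG : ∀ j j' : Ix k, QW a k b (fun _ => (1 : Matrix κ κ ℝ)) n m j j' =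
      ((2 : ℝ) ^ a * 2 ^ k)⁻¹ *
      ∑ x ∈ iv a n, b x (2 ^ k * m + val k j) ⬝ᵥ b x (2 ^ k * m + val k j') := by
    intro j j'
    unfold H103.QW
    congr 1
    refine sum_congr rfl fun x _ => ?_
    rw [one_mulVec]
  have e5 : w ⬝ᵥ QW a k b (fun _ => (1 : Matrix κ κ ℝ)) n m *ᵥ w =
    ∑ j : Ix k, w j * ∑ j' : Ix k, QW a k b (fun _ => (1 : Matrix κ κ ℝ)) n m j j' * w j' := rfl
  rw [e5]
  simp only [e3, hG]
  rw [sum_comm, mul_sum]
  refine sum_congr rfl fun j _ => ?_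
  rw [sum_comm, mul_sum, mul_sum]
  refine sum_congr rfl fun j' _ => ?_
  rw [← mul_sum]
  ring

/-- the cap as a matrix inequality, every rectangle -/
theorem psd_rect {c : ℝ} {a k : ℕ} {F : ℤ → ℤ → ℝ} {n m : ℤ} (h : CapS c a k (un F) n m) :
    (c • (1 : Matrix (Ix k) (Ix k) ℝ) - PA F k a n m).PosSemidef := by
  have e : PA F k a n m = QW a k (un F) (fun _ => 1) n m := by
    rw [PA_eq]
    unfold H103.QK
    simp only [inv_one]
  have hs : (PA F k a n m)ᵀ = PA F k a n m := by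
    have := (Xg_psd a k F n m).1
    rwa [Matrix.IsHermitian, conjTranspose_eq_transpose_of_trivial] at this
  have key : ∀ w : Ix k → ℝ, w ⬝ᵥ PA F k a n m *ᵥ w ≤ c * (w ⬝ᵥ w) := by
    intro w
    set v : ℤ → ℝ := fun y => ∑ j', if 2 ^ k * m + (val k j' : ℤ) = y then w j' else 0 with hv
    have hvj : ∀ j : Ix k, v (2 ^ k * m + val k j) = w j := by
      intro j
      rw [hv]
      beta_reduce
      rw [sum_eq_single j]
      · rw [if_pos rfl]
      · intro j' _ hj'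
        rw [if_neg]
        intro h2
        apply hj'
        apply H205.val_inj
        have : ((val k j' : ℕ) : ℤ) = (val k j : ℕ) := by linarith
        exact_mod_cast this
      · intro h2
        exact absurd (mem_univ _) h2
    have h1 := h v
    have e1 : ∑ y ∈ iv k m, v y ^ 2 = w ⬝ᵥ w := by
      rw [PL.H588.sum_iv, dotProduct]
      exact sum_congr rfl fun j _ => by rw [hvj, sq]
    have e2 : ∑ x ∈ iv a n, ∑ l, (∑ y ∈ iv k m, v y * un F x y l) ^ 2 =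
        ∑ x ∈ iv a n, ∑ l, (∑ j, w j * un F x (2 ^ k * m + val k j) l) ^ 2 := by
      refine sum_congr rfl fun x _ => sum_congr rfl fun l _ => ?_
      rw [PL.H588.sum_iv]
      congr 1
      exact sum_congr rfl fun j _ => by rw [hvj]
    rw [e1, e2] at h1
    rw [e, form_QW1, inv_mul_le_iff₀ (by positivity)]
    refine h1.trans (le_of_eq ?_)
    ring
  refine PosSemidef.of_dotProduct_mulVec_nonneg ?_ fun w => ?_
  · rw [Matrix.IsHermitian, conjTranspose_eq_transpose_of_trivial, transpose_sub, transpose_smul,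
      transpose_one, hs]
  rw [star_trivial, sub_mulVec, dotProduct_sub, smul_mulVec, one_mulVec, dotProduct_smul,
    smul_eq_mul, sub_nonneg]
  exact key w

/-- rectangles with the longer side in the outer variable -/
theorem capS_rects {c : ℝ} {k : ℕ} {F : ℤ → ℤ → ℝ}
    (h : ∀ n m, CapS c k k (un F) n m) : ∀ (r : ℕ) (n m : ℤ), CapS c (k + r) k (un F) n m
  | 0, n, m => h n m
  | r + 1, n, m => capS_out (capS_rects h r (2 * n) m) (capS_rects h r (2 * n + 1) m)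

/-! ### Energies -/

theorem sum_sub {k N : ℕ} (hk : k ≤ N) (R : ℤ) (f : ℤ → ℝ) :
    ∑ x ∈ iv N R, f x = ∑ n ∈ iv (N - k) R, ∑ x ∈ iv k n, f x := by
  have e : N = (N - k) + k := by omega
  conv_lhs => rw [e]
  rw [PL.H990.sum_iv_add]

/-- squares of the root -/
theorem root_sq {k N : ℕ} (hk : k ≤ N) (R S : ℤ) (φ : ℤ → ℤ → ℤ → ℤ → ℝ) :
    ∑ y ∈ iv N S, ∑ z ∈ iv N R, φ (ix k z) (ix k y) z y =
      ∑ m ∈ iv (N - k) S, ∑ n ∈ iv (N - k) R, ∑ y ∈ iv k m, ∑ z ∈ iv k n, φ n m z y := by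
  rw [sum_sub hk S]
  refine sum_congr rfl fun m _ => ?_
  have e1 : ∀ y ∈ iv k m, ∑ z ∈ iv N R, φ (ix k z) (ix k y) z y =
      ∑ n ∈ iv (N - k) R, ∑ z ∈ iv k n, φ n m z y := by
    intro y hy
    rw [sum_sub hk R]
    refine sum_congr rfl fun n _ => sum_congr rfl fun z hz => ?_
    rw [mem_iv.1 hy, mem_iv.1 hz]
  rw [sum_congr rfl e1, sum_comm]

/-- **Energies at all times** of a path which starts at zero. -/
theorem en_le_pwr {N : ℕ} {R S : ℤ} {Q : ℕ → ℤ → ℤ → Prop} {F : ℕ → ℤ → ℤ → ℝ}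
    (hP : Path N R S Q F) (h0 : F 0 = 0) : ∀ k ≤ N,
    ∑ y ∈ iv N S, ∑ z ∈ iv N R, F k z y ^ 2 ≤ pwr N R S Q F := by
  have key : ∀ k ≤ N, ∑ y ∈ iv N S, ∑ z ∈ iv N R, F k z y ^ 2 ≤
      ∑ j ∈ range k, sqQ N R S j (Q j) (F (j + 1)) := by
    intro k
    induction k with
    | zero =>
      intro _
      rw [range_zero, sum_empty, h0]
      simp
    | succ k ih =>
      intro hk
      rw [sum_range_succ]
      have h1 := ih (by omega)
      have e1 := root_sq (k := k) (by omega : k ≤ N) R S fun _ _ z y => F (k + 1) z y ^ 2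
      have e2 := root_sq (k := k) (by omega : k ≤ N) R S fun _ _ z y => F k z y ^ 2
      rw [e1]
      rw [e2] at h1
      have h2 : ∑ m ∈ iv (N - k) S, ∑ n ∈ iv (N - k) R, ∑ y ∈ iv k m, ∑ z ∈ iv k n,
          F (k + 1) z y ^ 2 ≤ ∑ m ∈ iv (N - k) S, ∑ n ∈ iv (N - k) R,
          (∑ y ∈ iv k m, ∑ z ∈ iv k n, F k z y ^ 2 +
            if Q k n m then sqb k n m (F (k + 1)) else 0) := by
        refine sum_le_sum fun m hm => sum_le_sum fun n hn => ?_
        by_cases hQ : Q k n m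
        · rw [if_pos hQ]
          have : 0 ≤ ∑ y ∈ iv k m, ∑ z ∈ iv k n, F k z y ^ 2 :=
            sum_nonneg fun _ _ => sum_nonneg fun _ _ => sq_nonneg _
          show sqb k n m (F (k + 1)) ≤ _
          linarith
        · rw [if_neg hQ, add_zero]
          refine le_of_eq (sum_congr rfl fun y hy => sum_congr rfl fun z hz => ?_)
          rw [hP k (by omega) n hn m hm hQ z hz y hy]
      refine h2.trans ?_
      simp only [sum_add_distrib]
      exact add_le_add h1 le_rfl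
  intro k hk
  refine (key k hk).trans ?_
  unfold H958.pwr
  exact sum_le_sum_of_subset_of_nonneg (range_subset_range.2 hk)
    fun j _ _ => H736.sqQ_nonneg ..

/-- **Born energies** of a path. -/
theorem born_le_pwr {N : ℕ} {R S : ℤ} {Q : ℕ → ℤ → ℤ → Prop} {F : ℕ → ℤ → ℤ → ℝ}
    {H : ℕ → ℤ → ℤ → Prop} (hH : ∀ k < N, ∀ n m, H k n m → Q k n m) :
    ∑ k ∈ range N, ∑ y ∈ iv N S, ∑ z ∈ iv N R,
      (if H k (ix k z) (ix k y) then F (k + 1) z y ^ 2 else 0) ≤ pwr N R S Q F := by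
  unfold H958.pwr
  refine sum_le_sum fun k hk => ?_
  have hk' : k < N := mem_range.1 hk
  rw [root_sq hk'.le R S fun n m z y => if H k n m then F (k + 1) z y ^ 2 else 0]
  unfold H736.sqQ
  refine sum_le_sum fun m _ => sum_le_sum fun n _ => ?_
  by_cases hh : H k n m
  · rw [if_pos (hH k hk' n m hh)]
    simp only [if_pos hh]
    exact le_rfl
  · simp only [if_neg hh, sum_const_zero]
    split_ifs
    · exact sqb_nonneg ..
    · exact le_rfl

/-- the tied index is injective -/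
theorem tie_le {T A : Finset ℤ} {c m : ℤ} {w : ℝ} {q : ℤ → Prop} (hw : 0 ≤ w) :
    ∑ n ∈ A, (if c - m - n ∈ T ∧ q (c - m - n) then w else 0) ≤
      ∑ n1 ∈ T, if q n1 then w else 0 := by
  have h0 : ∀ n1, 0 ≤ (if q n1 then w else 0) := fun n1 => by
    split_ifs
    · exact hw
    · exact le_rfl
  calc ∑ n ∈ A, (if c - m - n ∈ T ∧ q (c - m - n) then w else 0)
      = ∑ n ∈ A, (if c - m - n ∈ T then (if q (c - m - n) then w else 0) else 0) := by
        refine sum_congr rfl fun n _ => ?_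
        split_ifs <;> simp_all
    _ = ∑ n ∈ A.filter (fun n => c - m - n ∈ T), (if q (c - m - n) then w else 0) := by
        rw [sum_filter]
    _ = ∑ n1 ∈ (A.filter (fun n => c - m - n ∈ T)).image (fun n => c - m - n),
        (if q n1 then w else 0) := by
        rw [sum_image]
        intro a _ b _ h
        have h' : c - m - a = c - m - b := h
        omega
    _ ≤ _ := by
        refine sum_le_sum_of_subset_of_nonneg ?_ fun n1 _ _ => h0 n1
        intro n1 hn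
        rw [mem_image] at hn
        obtain ⟨n, hn, rfl⟩ := hn
        exact (mem_filter.1 hn).2

section cls

variable {ι : Type} [Fintype ι] [DecidableEq ι]

/-- the energy of `A` on the nodes where the third family is affected -/
def cr0 (q : ℕ → ℤ → ℤ → ℤ → Prop) (o : ℤ) (K : ℕ) (M : Pt) (A : ℤ → ℕ → ℤ → ℤ → ℝ)
    (x0 : ℤ) : ℝ :=
  ∑ k ∈ range K, ∑ m ∈ iv (K - k) M.2.2, ∑ n ∈ iv (K - k) M.2.1,
    if cP o x0 k - m - n ∈ iv (K - k) M.1 ∧ q k (ix k x0) m (cP o x0 k - m - n) then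
      sqb k m n (A x0 (k + 1)) else 0

theorem cr0_nonneg (q : ℕ → ℤ → ℤ → ℤ → Prop) (o : ℤ) (K : ℕ) (M : Pt)
    (A : ℤ → ℕ → ℤ → ℤ → ℝ) (x0 : ℤ) : 0 ≤ cr0 q o K M A x0 := by
  refine sum_nonneg fun k _ => sum_nonneg fun m _ => sum_nonneg fun n _ => ?_
  split_ifs
  · exact sqb_nonneg ..
  · exact le_rfl

/-- **Sum over `x0` of the energies on the nodes where the third family is affected.** -/
theorem cr_sum {q : ℕ → ℤ → ℤ → ℤ → Prop} {o : ℤ} {K : ℕ} {M : Pt} {A : ℤ → ℕ → ℤ → ℤ → ℝ}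
    {μ c : ℝ} (hμ : 0 ≤ μ)
    (hm : ∀ k < K, ∀ i : ℤ, ∀ n' ∈ iv (K - k) M.2.2, ∀ m' ∈ iv (K - k) M.2.1,
      ∑ x0 ∈ iv k i, sqb k n' m' (A x0 (k + 1)) ≤ μ * 8 ^ k)
    (hq : ∀ x0, ∑ k ∈ range K, ∑ m ∈ iv (K - k) M.2.2, ∑ n1 ∈ iv (K - k) M.1,
      (if q k (ix k x0) m n1 then (4 : ℝ) ^ k else 0) ≤ c * 4 ^ K) (t : ℤ) :
    ∑ x0 ∈ iv K t, cr0 q o K M A x0 ≤ c * μ * 8 ^ K := by
  set P : ℕ → ℤ → ℤ → ℤ → Prop := fun k i m n =>
    o - 2 - i - m - n ∈ iv (K - k) M.1 ∧ q k i m (o - 2 - i - m - n) with hP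
  have step : ∀ k < K, ∑ x0 ∈ iv K t, ∑ m ∈ iv (K - k) M.2.2, ∑ n ∈ iv (K - k) M.2.1,
      (if P k (ix k x0) m n then sqb k m n (A x0 (k + 1)) else 0) ≤
      ∑ x0 ∈ iv K t, ∑ m ∈ iv (K - k) M.2.2, ∑ n ∈ iv (K - k) M.2.1,
        (if P k (ix k x0) m n then μ * 4 ^ k else 0) := by
    intro k hk
    rw [sum_sub hk.le t, sum_sub hk.le t]
    refine sum_le_sum fun i _ => ?_
    have e1 : ∀ (f : ℤ → ℤ → ℤ → ℝ), ∑ x0 ∈ iv k i, ∑ m ∈ iv (K - k) M.2.2,
        ∑ n ∈ iv (K - k) M.2.1, (if P k (ix k x0) m n then f x0 m n else 0) =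
        ∑ m ∈ iv (K - k) M.2.2, ∑ n ∈ iv (K - k) M.2.1,
          (if P k i m n then ∑ x0 ∈ iv k i, f x0 m n else 0) := by
      intro f
      rw [sum_comm]
      refine sum_congr rfl fun m _ => ?_
      rw [sum_comm]
      refine sum_congr rfl fun n _ => ?_
      have e2 : ∀ x0 ∈ iv k i, (if P k (ix k x0) m n then f x0 m n else 0) =
          if P k i m n then f x0 m n else 0 := fun x0 hx => by rw [mem_iv.1 hx]
      rw [sum_congr rfl e2]
      split_ifs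
      · rfl
      · simp
    rw [e1 fun x0 m n => sqb k m n (A x0 (k + 1)), e1 fun _ _ _ => μ * 4 ^ k]
    refine sum_le_sum fun m hm' => sum_le_sum fun n hn' => ?_
    split_ifs
    · refine (hm k hk i m hm' n hn').trans (le_of_eq ?_)
      rw [sum_const, card_iv, nsmul_eq_mul]
      push_cast
      have h8 : (8 : ℝ) ^ k = 2 ^ k * 4 ^ k := by rw [← mul_pow]; norm_num
      rw [h8]
      ring
    · exact le_rfl
  have h1 : ∀ x0, ∑ k ∈ range K, ∑ m ∈ iv (K - k) M.2.2, ∑ n ∈ iv (K - k) M.2.1,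
      (if P k (ix k x0) m n then μ * 4 ^ k else 0) ≤ μ * (c * 4 ^ K) := by
    intro x0
    refine le_trans ?_ (mul_le_mul_of_nonneg_left (hq x0) hμ)
    rw [mul_sum]
    refine sum_le_sum fun k _ => ?_
    rw [mul_sum]
    refine sum_le_sum fun m _ => ?_
    refine (tie_le (T := iv (K - k) M.1) (c := o - 2 - ix k x0) (m := m)
      (q := fun n1 => q k (ix k x0) m n1) (by positivity : 0 ≤ μ * 4 ^ k)).trans (le_of_eq ?_)
    rw [mul_sum]
    refine sum_congr rfl fun n1 _ => ?_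
    split_ifs <;> simp
  unfold cr0
  rw [sum_comm]
  calc ∑ k ∈ range K, ∑ x0 ∈ iv K t, ∑ m ∈ iv (K - k) M.2.2, ∑ n ∈ iv (K - k) M.2.1,
        (if cP o x0 k - m - n ∈ iv (K - k) M.1 ∧ q k (ix k x0) m (cP o x0 k - m - n) then
          sqb k m n (A x0 (k + 1)) else 0)
      ≤ ∑ k ∈ range K, ∑ x0 ∈ iv K t, ∑ m ∈ iv (K - k) M.2.2, ∑ n ∈ iv (K - k) M.2.1,
        (if P k (ix k x0) m n then μ * 4 ^ k else 0) :=
        sum_le_sum fun k hk => step k (mem_range.1 hk)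
    _ = ∑ x0 ∈ iv K t, ∑ k ∈ range K, ∑ m ∈ iv (K - k) M.2.2, ∑ n ∈ iv (K - k) M.2.1,
        (if P k (ix k x0) m n then μ * 4 ^ k else 0) := sum_comm
    _ ≤ ∑ _x0 ∈ iv K t, μ * (c * 4 ^ K) := sum_le_sum fun x0 _ => h1 x0
    _ = _ := by
        rw [sum_const, card_iv, nsmul_eq_mul]
        push_cast
        have h8 : (8 : ℝ) ^ K = 2 ^ K * 4 ^ K := by rw [← mul_pow]; norm_num
        rw [h8]
        ring

/-- the number of the scalar slot at one `x0` -/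
def eA (p : H401.Num) (s r : ℝ) (U : Tri) (K : ℕ) (g : ℤ → ℤ → ℝ) (F1 : ℕ → Pt → ℝ)
    (Q1 Q2 : ℕ → Pt → Prop) (o : ℤ) (x : Pt) (x0 : ℤ) : ℝ :=
  pwr K (cx K x).2.2 (cx K x).2.1 (fun k n m => qA p U K Q1 k (ix k x0) n m)
    (cA p s r U K g F1 Q1 x0) + cr0 (qC p U K Q2) o K (cx K x) (cA p s r U K g F1 Q1) x0

theorem eA_nonneg (p : H401.Num) (s r : ℝ) (U : Tri) (K : ℕ) (g : ℤ → ℤ → ℝ) (F1 : ℕ → Pt → ℝ)
    (Q1 Q2 : ℕ → Pt → Prop) (o : ℤ) (x : Pt) (x0 : ℤ) : 0 ≤ eA p s r U K g F1 Q1 Q2 o x x0 :=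
  add_nonneg (pwr_nonneg ..) (cr0_nonneg ..)

/-- every time of the cut `A`, every square -/
theorem cA_capT (p : H401.Num) (s r : ℝ) (U : Tri) (K : ℕ) (g : ℤ → ℤ → ℝ) (F1 : ℕ → Pt → ℝ)
    (Q1 : ℕ → Pt → Prop) (x0 : ℤ) (k j : ℕ) (hj : j = k ∨ j = k + 1) (n m : ℤ) :
    CapS (p.th s r ^ 2) k k (un (cA p s r U K g F1 Q1 x0 j)) n m := by
  rcases hj with rfl | rfl
  · exact capS_time (F := fun k => un (cA p s r U K g F1 Q1 x0 k)) (sq_nonneg _) rfl
      (fun k n m => cA_capS p s r U K g x0 k n m) j n m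
  · exact cA_capS p s r U K g x0 k n m

/-- the changes of the stopped slot `A` are affected squares -/
theorem ch_A (p : H401.Num) (s r : ℝ) (U : Tri) (K : ℕ) (g : ℤ → ℤ → ℝ) (F1 : ℕ → Pt → ℝ)
    (Q1 : ℕ → Pt → Prop) (x0 : ℤ) {k : ℕ} (hk : k < K) {n m : ℤ}
    (h : Ch (At (cA p s r U K g F1 Q1) K x0) k m n) : qA p U K Q1 k (ix k x0) n m := by
  by_contra hq
  obtain ⟨y, hy, z, hz, hne⟩ := h
  apply hne
  unfold H44.Ti.At
  rw [min_eq_left (by omega : k + 1 ≤ K), min_eq_left hk.le]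
  have h1 := lowF_off (c := p.th s r ^ 2) (F := fun k => un (mA p U K g F1 x0 k))
    (Q := fun k n m => qA p U K Q1 k (ix k x0) n m) hq hz hy
  exact congrFun h1 ()

/-- the changes of the stopped slot `C` are affected squares -/
theorem ch_C {n' : ℕ} {ez c0 : ℝ} {F2 : ℕ → Pt → ℝ} {Q2 : ℕ → Pt → Prop} (p : H401.Num)
    (ez' : ℝ) (U : Tri) {K : ℕ} (v : ℤ → ℤ → ι → ℝ) (hB : BSl n' ez c0 F2 Q2) (hK : K ≤ n')
    (x0 : ℤ) {k : ℕ} (hk : k < K) {n1 m : ℤ} (h : Ch (Cs (C1 p ez' U K v F2) K x0) k n1 m) :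
    qC p U K Q2 k (ix k x0) m n1 := by
  by_contra hq
  obtain ⟨y, hy, z, hz, hne⟩ := h
  apply hne
  unfold H44.Ti.Cs
  rw [min_eq_left (by omega : k + 1 ≤ K), min_eq_left hk.le]
  have h1 := mC_agree p U K v hB (hk.trans_le hK) hq z hz y hy
  show (√ez')⁻¹ • mC p U K v F2 x0 (k + 1) z y = (√ez')⁻¹ • mC p U K v F2 x0 k z y
  rw [h1]

/-- **The scalar slot at one `x0`.** -/
theorem numA_cls {n' : ℕ} {ez c0 : ℝ} {F2 : ℕ → Pt → ℝ} {Q2 : ℕ → Pt → Prop} (p : H401.Num)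
    (s r ez' : ℝ) (U : Tri) {K : ℕ} (g : ℤ → ℤ → ℝ) (v : ℤ → ℤ → ι → ℝ) (F1 : ℕ → Pt → ℝ)
    (Q1 : ℕ → Pt → Prop) (hB : BSl n' ez c0 F2 Q2) (hK : K ≤ n') (o : ℤ) (x : Pt) (x0 : ℤ) :
    NumA 0 K (cx K x).1 (cx K x).2.1 (cx K x).2.2 (cP o x0) (At (cA p s r U K g F1 Q1) K x0)
      (Cs (C1 p ez' U K v F2) K x0) (p.th s r ^ 2) (eA p s r U K g F1 Q1 Q2 o x x0) := by
  have hp : Path K (cx K x).2.2 (cx K x).2.1 (fun k n m => qA p U K Q1 k (ix k x0) n m)
      (cA p s r U K g F1 Q1 x0) := low1_path K _ _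
  constructor
  · intro k a n m _ hka haK j hj1 hj2 _ _
    have hj : min j K = k ∨ min j K = k + 1 := by omega
    have h1 : ∀ n m, CapS (p.th s r ^ 2) k k (un (At (cA p s r U K g F1 Q1) K x0 j)) n m :=
      fun n m => capS_swap (sq_nonneg _) (cA_capT p s r U K g F1 Q1 x0 k (min j K) hj m n)
    have h2 := capS_rects h1 (a - k) n m
    rw [Nat.add_sub_cancel' hka] at h2
    exact psd_rect h2
  · intro k hk
    refine le_trans ?_ (le_add_of_nonneg_right (cr0_nonneg ..))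
    refine le_trans (le_of_eq ?_) (en_le_pwr hp rfl k hk)
    unfold H44.Ti.At
    rw [min_eq_left hk]
    rfl
  · refine le_trans ?_ (le_add_of_nonneg_right (cr0_nonneg ..))
    refine le_trans (le_of_eq ?_) (born_le_pwr (F := cA p s r U K g F1 Q1 x0)
      (H := fun k n m => Ch (At (cA p s r U K g F1 Q1) K x0) k m n)
      fun k hk n m h => ch_A p s r U K g F1 Q1 x0 hk h)
    rw [range_eq_Ico]
    refine sum_congr rfl fun k hk => ?_
    have hk' : k + 1 ≤ K := by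
      have := (mem_Ico.1 hk).2
      omega
    have e1 : ∀ y z, At (cA p s r U K g F1 Q1) K x0 (k + 1) y z =
        cA p s r U K g F1 Q1 x0 (k + 1) z y := by
      intro y z
      unfold H44.Ti.At
      rw [min_eq_left hk']
      rfl
    simp only [e1]
  · refine le_trans ?_ (le_add_of_nonneg_left (pwr_nonneg ..))
    unfold cr0
    rw [range_eq_Ico]
    refine sum_le_sum fun k hk => ?_
    have hk1 : k < K := (mem_Ico.1 hk).2
    unfold H103.GW
    rw [mul_sum]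
    refine sum_le_sum fun m _ => ?_
    rw [mul_sum]
    refine sum_le_sum fun n _ => ?_
    by_cases hT : cP o x0 k - m - n ∈ iv (K - k) (cx K x).1
    · rw [if_pos hT]
      beta_reduce
      by_cases hC : Ch (Cs (C1 p ez' U K v F2) K x0) k (cP o x0 k - m - n) m
      · rw [if_pos hC, if_pos ⟨hT, ch_C p ez' U v hB hK x0 hk1 hC⟩]
        have e1 : At (cA p s r U K g F1 Q1) K x0 (k + 1) =
            fun y z => cA p s r U K g F1 Q1 x0 (k + 1) z y := by
          unfold H44.Ti.At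
          rw [min_eq_left (by omega : k + 1 ≤ K)]
          rfl
        rw [e1, sqb_swap k m n]
        exact (sqb_eq k n m _).ge
      · rw [if_neg hC, mul_zero]
        split_ifs
        · exact sqb_nonneg ..
        · exact le_rfl
    · rw [if_neg hT, mul_zero, if_neg fun h => hT h.1]

/-- **The sum over `x0`.** -/
theorem eA_sum {p : H401.Num} {n' : ℕ} {e c0 ez tt : ℝ} {F1 F2 : ℕ → Pt → ℝ}
    {Q1 Q2 : ℕ → Pt → Prop} {K : ℕ} {x : Pt} {s r P : ℝ} {U : Tri} {g : ℤ → ℤ → ℝ}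
    {u v : ℤ → ℤ → ι → ℝ} (hB1 : BSl n' e c0 F1 Q1) (hU : BUn n' tt F1) (htt : 0 ≤ tt)
    (hB2 : BSl n' ez c0 F2 Q2) (he : 0 ≤ e) (hc0 : 0 ≤ c0) (hΛ : 0 ≤ p.Lm) (hs : 0 ≤ s)
    (hK : K ≤ n') (hc : Cls K x s r P U g u v) (o : ℤ) :
    ∑ t ∈ rt (cx K x), ∑ x0 ∈ iv K t, eA p s r U K g F1 Q1 Q2 o x x0 ≤
      24 * e * (c0 + 2) * (p.Lm * s * 8 ^ K) := by
  have hμ : 0 ≤ 4 * e * p.Lm * s := by positivity
  have h1 : ∀ t, ∑ x0 ∈ iv K t, pwr K (cx K x).2.2 (cx K x).2.1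
      (fun k n m => qA p U K Q1 k (ix k x0) n m) (cA p s r U K g F1 Q1 x0) ≤
      (c0 + 2) * (4 * e * p.Lm * s) * 8 ^ K := by
    intro t
    refine (famA_lo (τ := 1) hΛ hs one_pos htt he hc0 hc hU hB1 hK t).pow.trans (le_of_eq ?_)
    unfold gD mW
    ring
  have h2 : ∀ t, ∑ x0 ∈ iv K t, cr0 (qC p U K Q2) o K (cx K x) (cA p s r U K g F1 Q1) x0 ≤
      (c0 + 2) * (4 * e * p.Lm * s) * 8 ^ K := by
    intro t
    refine cr_sum hμ ?_ ?_ t
    · intro k hk i n1 hn1 m1 hm1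
      refine le_trans (le_of_eq ?_) (massA_one hB1 he hΛ hs hK hc k hk i n1 hn1 m1 hm1)
      refine sum_congr rfl fun x0 _ => ?_
      unfold H736.sqb
      rw [sum_comm]
    · intro x0
      refine le_trans ?_ (QD_pack' (Dd_sst p.Lm U.2.1 K) hB2 x0 hK (cx K x).2.2 (cx K x).1)
      refine sum_le_sum_of_subset_of_nonneg (range_subset_range.2 (Nat.le_succ K)) ?_
      intro k _ _
      refine sum_nonneg fun _ _ => sum_nonneg fun _ _ => ?_
      split_ifs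
      · positivity
      · exact le_rfl
  have h3 : ∀ t ∈ rt (cx K x), ∑ x0 ∈ iv K t, eA p s r U K g F1 Q1 Q2 o x x0 ≤
      2 * ((c0 + 2) * (4 * e * p.Lm * s) * 8 ^ K) := by
    intro t _
    unfold eA
    rw [sum_add_distrib]
    linarith [h1 t, h2 t]
  refine (sum_le_card_nsmul _ _ _ h3).trans (le_of_eq ?_)
  have hcard : (rt (cx K x)).card = 3 := by
    unfold H677.rt
    rw [Int.card_Icc]
    omega
  rw [hcard, nsmul_eq_mul]
  push_cast
  ring

end cls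

/-- **The leaf `FA`: the scalar slot of the pair `(Ct, A)`.** -/
theorem fA : H808.FA := by
  unfold H808.FA PairQ
  intro a _ _
  refine ⟨1, one_pos, fun e0 _ _ => ⟨1, one_pos, fun k8 _ _ => ⟨1, one_pos, fun k3 _ _ δ hδ => ?_⟩⟩⟩
  refine ⟨1, δ, one_pos, hδ, fun c _ _ d hd hdδ Kt e cP L _ he hcP _ =>
    ⟨24 * e * (cP + 2), by positivity, ?_⟩⟩
  intro t ht ht1 n ez F1 F2 F3 h1 _ _ o _ K hK x ι _ _ s r U g u v hs hr hcls Q1 Q2 Q3 q1 q2 _ _
  set p : H401.Num := ⟨a, e0, k8, k3, c, d, Kt, e, cP, L, 1, t⟩ with hp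
  refine ⟨eA p s r U K g F1 Q1 Q2 o x, fun x0 => eA_nonneg .., fun _ _ x0 _ => ?_, ?_⟩
  · refine H808.numA_mono ?_ (numA_cls p s r ez U g v F1 Q1 q2 hK o x x0)
    unfold H408.tauI
    nlinarith [sq_nonneg (p.th s r)]
  · have hΛ : 0 ≤ p.Lm := (Real.rpow_pos_of_pos ht _).le
    refine (eA_sum q1 h1.2.2.1 h1.1 q2 (by linarith) hcP hΛ hs.le hK hcls.toCls o).trans ?_
    have h2 : p.Lm ≤ (t / r) ^ (-δ) := H652.td_le ht ht1 hr hd.le hdδ
    have h3 : (0 : ℝ) ≤ 24 * e * (cP + 2) := by positivity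
    calc 24 * e * (cP + 2) * (p.Lm * s * 8 ^ K)
        ≤ 24 * e * (cP + 2) * ((t / r) ^ (-δ) * s * 8 ^ K) := by gcongr
      _ = _ := by ring

end

end Vale.Agent.P141.H816.NI
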