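import Vale.Agent.P141.H205.SUse
import Vale.Agent.P141.H677.SkelTF

/-!
# P141, line (A): the static cut of families, fields of the flow part

`chQ F` : the squares on which the path `F` changes (and every square of scale `0`);
`lowC c F` : the static cut of `H205` on these squares, a path with the value `0` at the time `0`.

* `lowC_path` : the cut does not change where the input does not change;
* `lowC_cap` : operator norm squared at most `c` on every square;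
* `lowC_row`, `lowC_rows` : row energies of the cut are at most those of the input, all squares;
* `sum_chQ_le`, `own4_chQ_le`, `pwr_chQ_le`, `ownV_chQ_le` : sums over the changed squares are at
  most the sums over the affected squares of any path predicate;
* `cutA`, `cutV` : the cut of families at every `x0`, in the letters of `H677.Sk`.
-/

namespace Vale.Agent.P141.H816

open Finset Matrix
open Vale.Agent.P075 (Ix val)
open Vale.Agent.P141.PL (Pt iv hs ix mem_iv ix_ix)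
open Vale.Agent.P141.H103 (un QW)
open Vale.Agent.P141.H205
open Vale.Agent.P141.H736 (Path Agree sqb sqQ)
open Vale.Agent.P141.H958 (Aff s4 pwr mem_Aff)
open Vale.Agent.P141.H48 (own4)
open Vale.Agent.P141.H677.Sk (FamA FamV)

noncomputable section

open scoped Classical

variable {κ : Type*} [Fintype κ]

/-- the squares on which the path changes, and every square of scale `0` -/
def chQ (F : ℕ → ℤ → ℤ → κ → ℝ) (k : ℕ) (n m : ℤ) : Prop :=
  k = 0 ∨ ∃ x ∈ iv k n, ∃ y ∈ iv k m, F (k + 1) x y ≠ F k x y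

/-- the low path -/
def lowC (c : ℝ) (F : ℕ → ℤ → ℤ → κ → ℝ) : ℕ → ℤ → ℤ → κ → ℝ := lowF (chQ F) c F

variable {c : ℝ} {F : ℕ → ℤ → ℤ → κ → ℝ}

omit [Fintype κ] in
theorem chQ_zero (F : ℕ → ℤ → ℤ → κ → ℝ) (n m : ℤ) : chQ F 0 n m := Or.inl rfl

omit [Fintype κ] in
theorem not_chQ {k : ℕ} {n m : ℤ} (h : ¬ chQ F k n m) :
    ∀ x ∈ iv k n, ∀ y ∈ iv k m, F (k + 1) x y = F k x y := by
  intro x hx y hy
  by_contra h2
  exact h (Or.inr ⟨x, hx, y, hy, h2⟩)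

omit [Fintype κ] in
theorem not_chQ' {k : ℕ} (hk : k ≠ 0) {n m : ℤ}
    (h : ∀ x ∈ iv k n, ∀ y ∈ iv k m, F (k + 1) x y = F k x y) : ¬ chQ F k n m := by
  rintro (h1 | ⟨x, hx, y, hy, h2⟩)
  · exact hk h1
  · exact h2 (h x hx y hy)

theorem lowC_zero : lowC c F 0 = 0 := rfl

theorem val_mem (k : ℕ) (m : ℤ) (j : Ix k) : 2 ^ k * m + (val k j : ℤ) ∈ iv k m := by
  rw [iv, mem_Ico]
  have h1 : ((val k j : ℕ) : ℤ) < 2 ^ k := by exact_mod_cast Vale.Agent.P075.val_lt k j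
  have h2 : (0 : ℤ) ≤ (val k j : ℤ) := by positivity
  constructor <;> linarith

omit [Fintype κ] in
theorem cutv_zero (k : ℕ) (P : Matrix (Ix k) (Ix k) ℝ) (m : ℤ) {f : ℤ → κ → ℝ}
    (h : ∀ y ∈ iv k m, f y = 0) (y : ℤ) : cutv k P m f y = 0 := by
  funext l
  unfold cutv
  rw [Pi.zero_apply]
  refine sum_eq_zero fun j' _ => ?_
  split_ifs
  · refine sum_eq_zero fun j _ => ?_
    rw [h _ (val_mem k m j), Pi.zero_apply, zero_mul]
  · rfl

/-- **(path)** the cut does not change where the input does not change -/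
theorem lowC_path (h0 : F 0 = 0) {k : ℕ} {n m : ℤ}
    (h : ∀ x ∈ iv k n, ∀ y ∈ iv k m, F (k + 1) x y = F k x y) :
    ∀ x ∈ iv k n, ∀ y ∈ iv k m, lowC c F (k + 1) x y = lowC c F k x y := by
  intro x hx y hy
  rcases Nat.eq_zero_or_pos k with rfl | hk
  · unfold lowC
    rw [lowF_on (chQ_zero F n m) hx hy, lowF_zero]
    refine cutv_zero 0 _ m (fun y' hy' => ?_) y
    rw [h x hx y' hy', h0]
    rfl
  · unfold lowC
    exact lowF_off (not_chQ' hk.ne' h) hx hy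

/-- **(cap)** time and scale `k` -/
theorem lowC_cap (hc : 0 ≤ c) (k : ℕ) (n m : ℤ) : CapS c k k (lowC c F k) n m := by
  cases k with
  | zero =>
    intro w
    have e : ∑ x ∈ iv 0 n, ∑ l : κ, (∑ y ∈ iv 0 m, w y * lowC c F 0 x y l) ^ 2 = 0 := by
      rw [lowC_zero]
      simp
    rw [e]
    exact mul_nonneg (by positivity) (sum_nonneg fun _ _ => sq_nonneg _)
  | succ j => exact capS_four fun n' _ m' _ => capS_path hc (chQ_zero F) j n' m'

/-- the cap at the time `k + 1` on the squares of scale `k` -/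
theorem lowC_cap' (hc : 0 ≤ c) (k : ℕ) (n m : ℤ) : CapS c k k (lowC c F (k + 1)) n m :=
  capS_path hc (chQ_zero F) k n m

/-- combinations of the labels at one row, changed squares -/
theorem lowC_rows_on {k : ℕ} {n m : ℤ} (hQ : chQ F k n m) (w : κ → ℝ) {x : ℤ} (hx : x ∈ iv k n) :
    ∑ y ∈ iv k m, (lowC c F (k + 1) x y ⬝ᵥ w) ^ 2 ≤ ∑ y ∈ iv k m, (F (k + 1) x y ⬝ᵥ w) ^ 2 := by
  have h := low_rows (F := F) (c := c) hQ (X := {x}) (singleton_subset_iff.2 hx) fun _ => w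
  simp only [sum_singleton] at h
  have e : ∀ (v : κ → ℝ), ∑ l, w l * v l = v ⬝ᵥ w := fun v => by
    rw [dotProduct_comm]
    rfl
  simp only [e] at h
  exact h

/-- **(rows)**, every square of scale `k` at the time `k + 1` -/
theorem lowC_rows (w : κ → ℝ) : ∀ (k : ℕ) (n m : ℤ), ∀ x ∈ iv k n,
    ∑ y ∈ iv k m, (lowC c F (k + 1) x y ⬝ᵥ w) ^ 2 ≤ ∑ y ∈ iv k m, (F (k + 1) x y ⬝ᵥ w) ^ 2 := by
  intro k
  induction k with
  | zero => exact fun n m x hx => lowC_rows_on (chQ_zero F n m) w hx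
  | succ k ih =>
    intro n m x hx
    by_cases hQ : chQ F (k + 1) n m
    · exact lowC_rows_on hQ w hx
    · have e1 : ∀ y ∈ iv (k + 1) m, (lowC c F (k + 1 + 1) x y ⬝ᵥ w) ^ 2 =
          (lowC c F (k + 1) x y ⬝ᵥ w) ^ 2 := fun y hy => by
        unfold lowC
        rw [lowF_off hQ hx hy]
      have e2 : ∀ y ∈ iv (k + 1) m, (F (k + 1 + 1) x y ⬝ᵥ w) ^ 2 = (F (k + 1) x y ⬝ᵥ w) ^ 2 :=
        fun y hy => by rw [not_chQ hQ x hx y hy]
      rw [sum_congr rfl e1, sum_congr rfl e2,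
        sum_iv_two' k m fun y => (lowC c F (k + 1) x y ⬝ᵥ w) ^ 2,
        sum_iv_two' k m fun y => (F (k + 1) x y ⬝ᵥ w) ^ 2]
      have hx1 : x ∈ iv k (ix k x) := mem_iv.2 rfl
      exact add_le_add (ih _ _ x hx1) (ih _ _ x hx1)

/-- every square of scale `k` at the time `k` -/
theorem lowC_rows' (w : κ → ℝ) (k : ℕ) (m : ℤ) (x : ℤ) :
    ∑ y ∈ iv k m, (lowC c F k x y ⬝ᵥ w) ^ 2 ≤ ∑ y ∈ iv k m, (F k x y ⬝ᵥ w) ^ 2 := by
  cases k with
  | zero =>
    have e : ∑ y ∈ iv 0 m, (lowC c F 0 x y ⬝ᵥ w) ^ 2 = 0 := by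
      rw [lowC_zero]
      simp
    rw [e]
    exact sum_nonneg fun _ _ => sq_nonneg _
  | succ k =>
    rw [sum_iv_two' k m fun y => (lowC c F (k + 1) x y ⬝ᵥ w) ^ 2,
      sum_iv_two' k m fun y => (F (k + 1) x y ⬝ᵥ w) ^ 2]
    have hx1 : x ∈ iv k (ix k x) := mem_iv.2 rfl
    exact add_le_add (lowC_rows w k _ _ x hx1) (lowC_rows w k _ _ x hx1)

/-- row energies, every square of scale `k` at the time `k + 1` -/
theorem lowC_row (k : ℕ) (m : ℤ) (x : ℤ) :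
    ∑ y ∈ iv k m, lowC c F (k + 1) x y ⬝ᵥ lowC c F (k + 1) x y ≤
      ∑ y ∈ iv k m, F (k + 1) x y ⬝ᵥ F (k + 1) x y := by
  have hx1 : x ∈ iv k (ix k x) := mem_iv.2 rfl
  have e : ∀ G : ℤ → κ → ℝ, ∑ y ∈ iv k m, G y ⬝ᵥ G y =
      ∑ l, ∑ y ∈ iv k m, (G y ⬝ᵥ Pi.single l 1) ^ 2 := by
    intro G
    rw [sum_comm]
    refine sum_congr rfl fun y _ => ?_
    rw [dotProduct]
    refine sum_congr rfl fun l _ => ?_
    rw [dotProduct_single, mul_one, sq]
  rw [e, e]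
  exact sum_le_sum fun l _ => lowC_rows (Pi.single l 1) k _ m x hx1

/-! ### Sums over the changed squares -/

omit [Fintype κ] in
/-- **transfer to any path predicate** -/
theorem sum_chQ_le {N : ℕ} {R S : ℤ} {Q : ℕ → ℤ → ℤ → Prop} (h0 : F 0 = 0)
    (hF : ∀ l, Path N R S Q (fun k x y => F k x y l)) {g : ℕ × ℤ × ℤ → ℝ} (hg : ∀ i, 0 ≤ g i)
    (hz : ∀ i : ℕ × ℤ × ℤ, (∀ x ∈ iv i.1 i.2.1, ∀ y ∈ iv i.1 i.2.2, F (i.1 + 1) x y = 0) →
      g i = 0) :
    ∑ i ∈ Aff N R S (chQ F), g i ≤ ∑ i ∈ Aff N R S Q, g i := by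
  rw [← sum_filter_add_sum_filter_not (Aff N R S (chQ F)) fun i => Q i.1 i.2.1 i.2.2]
  have e : ∑ i ∈ Aff N R S (chQ F) with ¬ Q i.1 i.2.1 i.2.2, g i = 0 := by
    refine sum_eq_zero fun i hi => ?_
    rw [mem_filter, mem_Aff] at hi
    obtain ⟨⟨hk, hn, hm, hc⟩, hQ⟩ := hi
    have hp : ∀ x ∈ iv i.1 i.2.1, ∀ y ∈ iv i.1 i.2.2, F (i.1 + 1) x y = F i.1 x y := by
      intro x hx y hy
      funext l
      exact hF l i.1 hk i.2.1 hn i.2.2 hm hQ x hx y hy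
    have hk0 : i.1 = 0 := by
      by_contra hne
      exact not_chQ' hne hp hc
    refine hz i fun x hx y hy => ?_
    rw [hp x hx y hy, hk0, h0]
    rfl
  rw [e, add_zero]
  refine sum_le_sum_of_subset_of_nonneg (fun i hi => ?_) fun i _ _ => hg i
  rw [mem_filter, mem_Aff] at hi
  rw [mem_Aff]
  exact ⟨hi.1.1, hi.1.2.1, hi.1.2.2.1, hi.2⟩

theorem GQ_zero {k : ℕ} {b : ℤ → ℤ → κ → ℝ} {n m : ℤ}
    (h : ∀ x ∈ iv k n, ∀ y ∈ iv k m, b x y = 0) : GQ k b n m = 0 := by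
  ext j j'
  unfold GQ H103.QW
  rw [Matrix.zero_apply, sum_eq_zero, mul_zero]
  intro x hx
  rw [h x hx _ (val_mem k m j), zero_dotProduct]

/-- own energies of a labelled path -/
theorem ownV_chQ_le {N : ℕ} {R S : ℤ} {Q : ℕ → ℤ → ℤ → Prop} (h0 : F 0 = 0)
    (hF : ∀ l, Path N R S Q (fun k x y => F k x y l)) :
    ∑ i ∈ Aff N R S (chQ F), (4 : ℝ) ^ i.1 *
        (GQ i.1 (F (i.1 + 1)) i.2.1 i.2.2 * GQ i.1 (F (i.1 + 1)) i.2.1 i.2.2).trace ≤
      ∑ i ∈ Aff N R S Q, (4 : ℝ) ^ i.1 *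
        (GQ i.1 (F (i.1 + 1)) i.2.1 i.2.2 * GQ i.1 (F (i.1 + 1)) i.2.1 i.2.2).trace := by
  refine sum_chQ_le h0 hF (fun i => mul_nonneg (by positivity) ?_) fun i hi => ?_
  · have hs : (GQ i.1 (F (i.1 + 1)) i.2.1 i.2.2)ᵀ = GQ i.1 (F (i.1 + 1)) i.2.1 i.2.2 := by
      have := (GQ_psd i.1 (F (i.1 + 1)) i.2.1 i.2.2).1
      rwa [IsHermitian, conjTranspose_eq_transpose_of_trivial] at this
    have h := trace_sq_nonneg (GQ i.1 (F (i.1 + 1)) i.2.1 i.2.2)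
    rwa [hs] at h
  · rw [GQ_zero hi, Matrix.mul_zero, Matrix.trace_zero, mul_zero]

/-- own energies of the large eigenvalues -/
theorem high_chQ_le {N : ℕ} {R S : ℤ} {Q : ℕ → ℤ → ℤ → Prop} (hc : 0 ≤ c) (h0 : F 0 = 0)
    (hF : ∀ l, Path N R S Q (fun k x y => F k x y l)) :
    ∑ i ∈ Aff N R S (chQ F), (4 : ℝ) ^ i.1 *
        (∑ j, if c < (GQ_psd i.1 (F (i.1 + 1)) i.2.1 i.2.2).1.eigenvalues j then
          (GQ_psd i.1 (F (i.1 + 1)) i.2.1 i.2.2).1.eigenvalues j ^ 2 else 0) ≤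
      ∑ i ∈ Aff N R S Q, (4 : ℝ) ^ i.1 *
        (∑ j, if c < (GQ_psd i.1 (F (i.1 + 1)) i.2.1 i.2.2).1.eigenvalues j then
          (GQ_psd i.1 (F (i.1 + 1)) i.2.1 i.2.2).1.eigenvalues j ^ 2 else 0) := by
  refine sum_chQ_le h0 hF (fun i => mul_nonneg (by positivity) (sum_nonneg fun j _ => ?_))
    fun i hi => ?_
  · split_ifs
    · exact sq_nonneg _
    · exact le_rfl
  · have e : ∀ j, (GQ_psd i.1 (F (i.1 + 1)) i.2.1 i.2.2).1.eigenvalues j = 0 := by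
      have hz : GQ i.1 (F (i.1 + 1)) i.2.1 i.2.2 = 0 := GQ_zero hi
      intro j
      have h := congrFun ((Matrix.IsHermitian.eigenvalues_eq_zero_iff
        (GQ_psd i.1 (F (i.1 + 1)) i.2.1 i.2.2).1).2 hz) j
      exact h
    rw [sum_eq_zero, mul_zero]
    intro j _
    rw [e j, if_neg (not_lt.2 hc)]

section scalar

variable {A : ℕ → ℤ → ℤ → ℝ}

/-- the own energy of a scalar path over its changed squares -/
theorem own4_chQ_le {N : ℕ} {R S : ℤ} {Q : ℕ → ℤ → ℤ → Prop} (h0 : A 0 = 0)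
    (hA : Path N R S Q A) : own4 N R S (chQ fun k => un (A k)) A ≤ own4 N R S Q A := by
  have h := ownV_chQ_le (F := fun k => un (A k)) (N := N) (R := R) (S := S) (Q := Q)
    (by
      show un (A 0) = 0
      rw [h0]
      rfl) (fun _ => hA)
  unfold H48.own4
  simp only [s4_un]
  exact h

/-- the power of a scalar path over its changed squares -/
theorem pwr_chQ_le {N : ℕ} {R S : ℤ} {Q : ℕ → ℤ → ℤ → Prop} (h0 : A 0 = 0)
    (hA : Path N R S Q A) : pwr N R S (chQ fun k => un (A k)) A ≤ pwr N R S Q A := by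
  unfold H958.pwr H736.sqQ
  refine sum_le_sum fun k hk => sum_le_sum fun m hm => sum_le_sum fun n hn => ?_
  by_cases h1 : Q k n m
  · rw [if_pos h1]
    split_ifs
    · exact le_rfl
    · exact H736.sqb_nonneg ..
  · rw [if_neg h1]
    split_ifs with h2
    · have hp : ∀ x ∈ iv k n, ∀ y ∈ iv k m, A (k + 1) x y = A k x y :=
        hA k (mem_range.1 hk) n hn m hm h1
      have hk0 : k = 0 := by
        by_contra hne
        refine not_chQ' hne (fun x hx y hy => ?_) h2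
        funext l
        exact hp x hx y hy
      refine le_of_eq (sum_eq_zero fun y hy => sum_eq_zero fun x hx => ?_)
      rw [hp x hx y hy, hk0, h0]
      simp
    · exact le_rfl

end scalar

/-! ### Families -/

variable {ι : Type} [Fintype ι]

/-- the cut of a scalar family -/
def cutA (c : ℝ) (A : FamA) : FamA := fun x0 => low1 (chQ fun k => un (A x0 k)) c (A x0)

/-- the cut of a labelled family -/
def cutV (c : ℝ) (b : FamV ι) : FamV ι := fun x0 => lowC c (b x0)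

theorem cutA_eq (c : ℝ) (A : FamA) (x0 : ℤ) (k : ℕ) :
    un (cutA c A x0 k) = lowC c (fun k => un (A x0 k)) k := rfl

theorem cutA_zero (c : ℝ) (A : FamA) (x0 : ℤ) : cutA c A x0 0 = 0 := rfl

omit [Fintype ι] in
theorem cutV_zero [Fintype ι] (c : ℝ) (b : FamV ι) (x0 : ℤ) : cutV c b x0 0 = 0 := rfl

theorem cutA_path {A : FamA} {x0 : ℤ} (h0 : A x0 0 = 0) {k : ℕ} {n m : ℤ}
    (h : ∀ x ∈ iv k n, ∀ y ∈ iv k m, A x0 (k + 1) x y = A x0 k x y) :
    ∀ x ∈ iv k n, ∀ y ∈ iv k m, cutA c A x0 (k + 1) x y = cutA c A x0 k x y := by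
  intro x hx y hy
  have h1 := lowC_path (c := c) (F := fun k => un (A x0 k)) (by
    show un (A x0 0) = 0
    rw [h0]
    rfl) (k := k) (n := n) (m := m) (fun x hx y hy => by
      funext l
      exact h x hx y hy) x hx y hy
  exact congrFun h1 ()

theorem cutV_path {b : FamV ι} {x0 : ℤ} (h0 : b x0 0 = 0) {k : ℕ} {n m : ℤ}
    (h : ∀ x ∈ iv k n, ∀ y ∈ iv k m, b x0 (k + 1) x y = b x0 k x y) :
    ∀ x ∈ iv k n, ∀ y ∈ iv k m, cutV c b x0 (k + 1) x y = cutV c b x0 k x y :=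
  lowC_path h0 h

theorem cutA_cap (hc : 0 ≤ c) (A : FamA) (x0 : ℤ) (k : ℕ) (n m : ℤ) (w : ℤ → ℝ) :
    ∑ z ∈ iv k n, (∑ y ∈ iv k m, cutA c A x0 k z y * w y) ^ 2 ≤
      c * 4 ^ k * ∑ y ∈ iv k m, w y ^ 2 := by
  have h := lowC_cap (F := fun k => un (A x0 k)) hc k n m w
  have e4 : (2 : ℝ) ^ k * 2 ^ k = 4 ^ k := by rw [← mul_pow]; norm_num
  rw [e4] at h
  refine le_trans (le_of_eq ?_) h
  refine sum_congr rfl fun z _ => ?_
  rw [Fintype.sum_unique]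
  congr 1
  exact sum_congr rfl fun y _ => mul_comm _ _

theorem cutV_cap (hc : 0 ≤ c) (b : FamV ι) (x0 : ℤ) (k : ℕ) (n m : ℤ) (w : ℤ → ℝ) :
    ∑ x ∈ iv k n, ∑ l, (∑ y ∈ iv k m, w y * cutV c b x0 k x y l) ^ 2 ≤
      c * 4 ^ k * ∑ y ∈ iv k m, w y ^ 2 := by
  have h := lowC_cap (F := b x0) hc k n m w
  have e4 : (2 : ℝ) ^ k * 2 ^ k = 4 ^ k := by rw [← mul_pow]; norm_num
  rwa [e4] at h

theorem cutA_rows (A : FamA) (x0 : ℤ) (k : ℕ) (m z : ℤ) :
    ∑ y ∈ iv k m, cutA c A x0 (k + 1) z y ^ 2 ≤ ∑ y ∈ iv k m, A x0 (k + 1) z y ^ 2 := by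
  have h := lowC_row (c := c) (F := fun k => un (A x0 k)) k m z
  refine le_trans (le_of_eq ?_) (h.trans (le_of_eq ?_))
  · refine sum_congr rfl fun y _ => ?_
    rw [dotProduct, Fintype.sum_unique, sq]
    rfl
  · refine sum_congr rfl fun y _ => ?_
    rw [dotProduct, Fintype.sum_unique, sq]
    rfl

theorem cutV_rows (b : FamV ι) (x0 : ℤ) (k : ℕ) (m x : ℤ) (w : ι → ℝ) :
    ∑ y ∈ iv k m, (cutV c b x0 (k + 1) x y ⬝ᵥ w) ^ 2 ≤
      ∑ y ∈ iv k m, (b x0 (k + 1) x y ⬝ᵥ w) ^ 2 :=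
  lowC_rows w k (ix k x) m x (mem_iv.2 rfl)

theorem cutV_row (b : FamV ι) (x0 : ℤ) (k : ℕ) (m x : ℤ) :
    ∑ y ∈ iv k m, cutV c b x0 (k + 1) x y ⬝ᵥ cutV c b x0 (k + 1) x y ≤
      ∑ y ∈ iv k m, b x0 (k + 1) x y ⬝ᵥ b x0 (k + 1) x y :=
  lowC_row k m x

end

end Vale.Agent.P141.H816
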